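import Vale.Agent.P024.H903.Mink

/-!
P024, block [LAT-U]: a unit of a totally complex Galois number field whose conjugates under
`g ^ i * t`, `i < h`, `t ∈ H`, have no relation which is odd under complex conjugation.
-/

namespace Vale.Agent.P024.H903

open NumberField InfinitePlace Module

theorem uact_mul {F L : Type*} [Field F] [Field L] [Algebra F L] (g t : L ≃ₐ[F] L)
    (x : (𝓞 L)ˣ) : uact (g * t) x = uact g (uact t x) := by
  apply Units.ext
  apply RingOfIntegers.ext
  rw [uact_coe, uact_coe, uact_coe]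
  rfl

theorem uact_one {F L : Type*} [Field F] [Field L] [Algebra F L] (x : (𝓞 L)ˣ) :
    uact (1 : L ≃ₐ[F] L) x = x := by
  apply Units.ext
  apply RingOfIntegers.ext
  rw [uact_coe]
  rfl

/-- The places of `u` and of its conjugates. -/
theorem log_uact {F L : Type*} [Field F] [Field L] [Algebra F L] (g : L ≃ₐ[F] L)
    (w : InfinitePlace L) (x : (𝓞 L)ˣ) :
    w ((uact g x : 𝓞 L) : L) = (g⁻¹ • w) ((x : 𝓞 L) : L) := by
  rw [InfinitePlace.smul_apply, uact_coe]
  rfl

/-- **[LAT-U]**. -/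
theorem unit_family {K : Type*} [Field K] [NumberField K] [IsGalois ℚ K]
    (H : Subgroup (K ≃ₐ[ℚ] K)) [Fintype H] (g c : K ≃ₐ[ℚ] K) (h : ℕ) (hh : 0 < h)
    (hcomm : ∀ t ∈ H, g * t = t * g) (hcH : c ∈ H) (hc2 : c * c = 1) (hg2 : g ^ (2 * h) = 1)
    (hdisj : ∀ i, 0 < i → i < 2 * h → g ^ i ∉ H) (w0 : InfinitePlace K)
    (hw0 : (c * g ^ h) • w0 = w0) :
    ∃ e : (𝓞 K)ˣ, uact (g ^ h) e = uact c e ∧ ∀ A : Fin h → H → ℤ,
      (∀ i t, A i (t * ⟨c, hcH⟩) = - A i t) →
      (∏ i : Fin h, ∏ t : H, uact (g ^ (i : ℕ) * (t : K ≃ₐ[ℚ] K)) e ^ (A i t)) ∈ Units.torsion K →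
      ∀ i t, A i t = 0 := by
  classical
  have hpow : ∀ (n : ℕ) (t : K ≃ₐ[ℚ] K), t ∈ H → g ^ n * t = t * g ^ n := by
    intro n t ht
    exact ((show Commute g t from hcomm t ht).pow_left n).eq
  set τ : K ≃ₐ[ℚ] K := c * g ^ h with hτ
  have hτ1 : τ ≠ 1 := by
    intro h1
    have h2 : g ^ h = c⁻¹ := by
      rw [hτ] at h1
      exact (inv_eq_of_mul_eq_one_right h1).symm
    exact hdisj h hh (by omega) (h2 ▸ inv_mem hcH)
  have hτ2 : τ * τ = 1 := by
    calc τ * τ = c * (g ^ h * c) * g ^ h := by rw [hτ]; simp only [mul_assoc]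
      _ = c * (c * g ^ h) * g ^ h := by rw [hpow h c hcH]
      _ = (c * c) * (g ^ h * g ^ h) := by simp only [mul_assoc]
      _ = 1 := by rw [hc2, one_mul, ← pow_add, ← two_mul, hg2]
  -- the stabiliser of `w0`
  have hstab : ∀ σ : K ≃ₐ[ℚ] K, σ • w0 = w0 → σ = 1 ∨ σ = τ := by
    intro σ hσ
    have hσm : σ ∈ MulAction.stabilizer (K ≃ₐ[ℚ] K) w0 := hσ
    have hτm : τ ∈ MulAction.stabilizer (K ≃ₐ[ℚ] K) w0 := hw0
    rcases nat_card_stabilizer_eq_one_or_two ℚ w0 with h1 | h2
    · rw [Subgroup.card_eq_one] at h1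
      rw [h1] at hτm
      exact absurd (Subgroup.mem_bot.mp hτm) hτ1
    · by_contra hcon
      push Not at hcon
      have hle : ({1, τ, σ} : Finset (K ≃ₐ[ℚ] K)).card ≤ 2 := by
        have hsub : (({1, τ, σ} : Finset (K ≃ₐ[ℚ] K)) : Set (K ≃ₐ[ℚ] K))
            ⊆ MulAction.stabilizer (K ≃ₐ[ℚ] K) w0 := by
          intro x hx
          simp only [Finset.coe_insert, Finset.coe_singleton, Set.mem_insert_iff,
            Set.mem_singleton_iff] at hx
          rcases hx with rfl | rfl | rfl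
          · exact one_mem _
          · exact hτm
          · exact hσm
        have h3 := Set.ncard_le_ncard hsub (Set.toFinite _)
        rw [Set.ncard_coe_finset] at h3
        have h4 : (MulAction.stabilizer (K ≃ₐ[ℚ] K) w0 : Set (K ≃ₐ[ℚ] K)).ncard = 2 := by
          rw [← h2]; rfl
        omega
      rw [Finset.card_insert_of_notMem, Finset.card_pair] at hle
      · omega
      · exact fun h3 => hcon.2 h3.symm
      · simp only [Finset.mem_insert, Finset.mem_singleton, not_or]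
        exact ⟨fun h3 => hτ1 h3.symm, fun h3 => hcon.1 h3.symm⟩
  -- the unit
  obtain ⟨e', he'⟩ := Units.dirichletUnitTheorem.exists_unit K w0
  set e : (𝓞 K)ˣ := e' * uact τ e' with he
  have hτe : uact τ e = e := by
    rw [he, map_mul, ← uact_mul, hτ2, uact_one, mul_comm]
  have hlog : ∀ w : InfinitePlace K, w ≠ w0 → Real.log (w ((e : 𝓞 K) : K)) < 0 := by
    intro w hw
    have h1 := he' w hw
    have h2 := he' (τ⁻¹ • w) (by
      intro h3
      apply hw
      rw [inv_smul_eq_iff] at h3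
      rw [h3, hw0])
    rw [he, c_mul, map_mul, log_uact, Real.log_mul]
    · linarith
    · exact (Units.pos_at_place e' w).ne'
    · exact (Units.pos_at_place e' _).ne'
  -- transitivity
  have htrans : ∀ w : InfinitePlace K, ∃ σ : K ≃ₐ[ℚ] K, σ • w0 = w := by
    intro w
    exact exists_smul_eq_of_comap_eq (k := ℚ) (Subsingleton.elim _ _)
  choose γ hγ using htrans
  set u : InfinitePlace K → (𝓞 K)ˣ := fun w => uact (γ w) e with hu
  have huσ : ∀ σ : K ≃ₐ[ℚ] K, uact σ e = u (σ • w0) := by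
    intro σ
    have h1 : ((γ (σ • w0))⁻¹ * σ) • w0 = w0 := by
      rw [mul_smul, inv_smul_eq_iff, hγ]
    have h2 : uact ((γ (σ • w0))⁻¹ * σ) e = e := by
      rcases hstab _ h1 with h3 | h3
      · rw [h3, uact_one]
      · rw [h3, hτe]
    have h3 : σ = γ (σ • w0) * ((γ (σ • w0))⁻¹ * σ) := by rw [mul_inv_cancel_left]
    calc uact σ e = uact (γ (σ • w0) * ((γ (σ • w0))⁻¹ * σ)) e := by rw [← h3]
      _ = uact (γ (σ • w0)) (uact ((γ (σ • w0))⁻¹ * σ) e) := uact_mul _ _ _
      _ = u (σ • w0) := by rw [h2]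
  have hul : ∀ w w' : InfinitePlace K, w' ≠ w → Real.log (w' ((u w : 𝓞 K) : K)) < 0 := by
    intro w w' hw
    rw [hu]
    simp only
    rw [log_uact]
    apply hlog
    intro h1
    apply hw
    rw [inv_smul_eq_iff, hγ] at h1
    exact h1
  -- the places of the conjugates
  set pl : Fin h × H → InfinitePlace K := fun p => (g ^ (p.1 : ℕ) * (p.2 : K ≃ₐ[ℚ] K)) • w0 with hpl
  have hcase : ∀ (a b : ℕ) (t s : K ≃ₐ[ℚ] K), t ∈ H → s ∈ H → a ≤ b → b - a < 2 * h →
      g ^ a * t = g ^ b * s → a = b := by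
    intro a b t s ht hs hab hlt heq
    by_contra hne
    have h1 : t = g ^ (b - a) * s := by
      have h2 : g ^ b = g ^ a * g ^ (b - a) := by rw [← pow_add]; congr 1; omega
      rw [h2, mul_assoc] at heq
      exact mul_left_cancel heq
    have h2 : g ^ (b - a) = t * s⁻¹ := by rw [h1, mul_inv_cancel_right]
    exact hdisj (b - a) (by omega) hlt (h2 ▸ mul_mem ht (inv_mem hs))
  have hinj : Function.Injective pl := by
    rintro ⟨i, t⟩ ⟨j, s⟩ hij
    have hij' : (g ^ (i : ℕ) * (t : K ≃ₐ[ℚ] K)) • w0 = (g ^ (j : ℕ) * (s : K ≃ₐ[ℚ] K)) • w0 := hij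
    have h1 : ((g ^ (j : ℕ) * (s : K ≃ₐ[ℚ] K))⁻¹ * (g ^ (i : ℕ) * (t : K ≃ₐ[ℚ] K))) • w0 = w0 := by
      rw [mul_smul, inv_smul_eq_iff, hij']
    have hi := i.2
    have hj := j.2
    rcases hstab _ h1 with h2 | h2
    · rw [inv_mul_eq_one] at h2
      have hij2 : (i : ℕ) = j := by
        rcases le_total (i : ℕ) (j : ℕ) with h3 | h3
        · exact hcase i j t s t.2 s.2 h3 (by omega) h2.symm
        · exact (hcase j i s t s.2 t.2 h3 (by omega) h2).symm
      have hij3 : i = j := Fin.ext hij2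
      subst hij3
      have : t = s := Subtype.ext (mul_left_cancel h2).symm
      rw [this]
    · exfalso
      rw [inv_mul_eq_iff_eq_mul] at h2
      have h3 : g ^ (i : ℕ) * (t : K ≃ₐ[ℚ] K) = g ^ ((j : ℕ) + h) * ((s : K ≃ₐ[ℚ] K) * c) := by
        rw [h2, hτ, pow_add]
        calc g ^ (j : ℕ) * (s : K ≃ₐ[ℚ] K) * (c * g ^ h)
            = g ^ (j : ℕ) * (((s : K ≃ₐ[ℚ] K) * c) * g ^ h) := by simp only [mul_assoc]
          _ = g ^ (j : ℕ) * (g ^ h * ((s : K ≃ₐ[ℚ] K) * c)) := by
              rw [hpow h _ (mul_mem s.2 hcH)]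
          _ = g ^ (j : ℕ) * g ^ h * ((s : K ≃ₐ[ℚ] K) * c) := by simp only [mul_assoc]
      have h4 := hcase i ((j : ℕ) + h) t ((s : K ≃ₐ[ℚ] K) * c) t.2 (mul_mem s.2 hcH)
        (by omega) (by omega) h3
      omega
  refine ⟨e, ?_, ?_⟩
  · have h1 : g ^ h = c * τ := by rw [hτ, ← mul_assoc, hc2, one_mul]
    rw [h1, uact_mul, hτe]
  · intro A hA hrel i t
    set a : InfinitePlace K → ℤ := fun w => ∑ p : Fin h × H, if pl p = w then A p.1 p.2 else 0
      with ha
    have hapl : ∀ q : Fin h × H, a (pl q) = A q.1 q.2 := by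
      intro q
      rw [ha]
      simp only
      rw [Finset.sum_eq_single q]
      · rw [if_pos rfl]
      · intro p _ hp
        rw [if_neg (fun h1 => hp (hinj h1))]
      · intro h1; exact absurd (Finset.mem_univ q) h1
    have hprod : ∏ w, u w ^ a w
        = ∏ i : Fin h, ∏ t : H, uact (g ^ (i : ℕ) * (t : K ≃ₐ[ℚ] K)) e ^ (A i t) := by
      have h1 : ∀ w, u w ^ a w = ∏ p : Fin h × H, u w ^ (if pl p = w then A p.1 p.2 else 0) := by
        intro w
        rw [ha]
        simp only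
        induction (Finset.univ : Finset (Fin h × H)) using Finset.induction_on with
        | empty => simp
        | insert p s hp ih => rw [Finset.sum_insert hp, Finset.prod_insert hp, zpow_add, ih]
      rw [Finset.prod_congr rfl (fun w _ => h1 w), Finset.prod_comm, Fintype.prod_prod_type]
      refine Finset.prod_congr rfl (fun i _ => Finset.prod_congr rfl (fun t _ => ?_))
      rw [Finset.prod_eq_single (pl (i, t))]
      · rw [if_pos rfl, huσ]
      · intro w _ hw
        rw [if_neg (fun h2 => hw h2.symm), zpow_zero]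
      · intro h2; exact absurd (Finset.mem_univ _) h2
    rw [← hprod] at hrel
    have hkey : ∀ (i : Fin h) (t : H), ¬ 0 < A i t := by
      intro i t hpos
      have h1 := rel_pos u hul a hrel (w₀ := pl (i, t)) (by rw [hapl]; exact hpos)
        (pl (i, t * ⟨c, hcH⟩))
      rw [hapl] at h1
      simp only at h1
      rw [hA] at h1
      linarith
    have h1 := hkey i t
    have h2 := hkey i (t * ⟨c, hcH⟩)
    rw [hA] at h2
    omega

end Vale.Agent.P024.H903
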