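import Vale.Agent.P024.H377.LemR
import Vale.Agent.P024.H157.Cls
import Vale.Agent.P024.ALL.Spec

/-!
P024, note 20992, block (D1): a relation between more than `2 [F : ℚ]` elements of an eigenspace.
-/

namespace Vale.Agent.P024.H903

open NumberField IsDedekindDomain Module

section

variable {L : Type*} [Field L] [NumberField L]

theorem vh_eq (w : HeightOneSpectrum (𝓞 L)) (x : Lˣ) (a : ℤ) :
    w.valuation L (x : L) = WithZero.exp a ↔ vh w x = Multiplicative.ofAdd a := by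
  have hx : w.valuation L (x : L) ≠ 0 := (Valuation.ne_zero_iff _).mpr x.ne_zero
  constructor
  · intro h
    show Multiplicative.ofAdd (WithZero.log (w.valuation L (x : L))) = _
    rw [h, WithZero.log_exp]
  · intro h
    have h1 : WithZero.log (w.valuation L (x : L)) = a := h
    rw [← WithZero.exp_log hx, h1]

theorem exists_vh (w : HeightOneSpectrum (𝓞 L)) (x : Lˣ) : ∃ a : ℤ,
    vh w x = Multiplicative.ofAdd a := ⟨(vh w x).toAdd, rfl⟩

/-- Elements whose valuations outside `T` are divisible by `n`. -/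
theorem clsT (T : Finset (HeightOneSpectrum (𝓞 L))) : ∃ h : ℕ, 0 < h ∧ ∀ (n : ℕ) (y : Lˣ),
    (∀ V ∉ T, ∃ k : ℤ, V.valuation L (y : L) = WithZero.exp ((n : ℤ) * k)) →
    ∃ u z : Lˣ, (∀ V ∉ T, V.valuation L (u : L) = 1) ∧ y ^ h = u * z ^ n := by
  classical
  induction T using Finset.induction_on with
  | empty =>
    obtain ⟨h, hh, H⟩ := H157.cls (L := L)
    refine ⟨h, hh, fun n y hy => ?_⟩
    obtain ⟨u, z, hz, huz⟩ := H n y y.ne_zero fun v => hy v (Finset.notMem_empty v)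
    refine ⟨ui L u, Units.mk0 z hz, ?_, ?_⟩
    · intro V _
      have h1 : V.valuation L (((u : 𝓞 L)) : L) ≤ 1 := V.valuation_le_one (u : 𝓞 L)
      have h2 : V.valuation L (((u⁻¹ : (𝓞 L)ˣ) : 𝓞 L) : L) ≤ 1 :=
        V.valuation_le_one ((u⁻¹ : (𝓞 L)ˣ) : 𝓞 L)
      have h3 : V.valuation L (((u : 𝓞 L)) : L) *
          V.valuation L (((u⁻¹ : (𝓞 L)ˣ) : 𝓞 L) : L) = 1 := by
        rw [← map_mul, ← c_mul, mul_inv_cancel]
        simp
      apply le_antisymm h1
      rw [← h3]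
      exact mul_le_of_le_one_right' h2
    · apply Units.ext
      push_cast
      rw [huz]
      rfl
  | insert w T hw ih =>
    obtain ⟨h, hh, H⟩ := ih
    obtain ⟨m, π, hm, hπ, hπw, hπw'⟩ := exists_gen (𝓞 L) w
    have hπ0 : algebraMap (𝓞 L) L π ≠ 0 := by
      rw [Ne, FaithfulSMul.algebraMap_eq_zero_iff]
      exact hπ
    set ρ : Lˣ := Units.mk0 _ hπ0 with hρ
    have hρw : vh w ρ = Multiplicative.ofAdd (-(m : ℤ)) := by
      rw [← vh_eq]
      show w.valuation L (algebraMap (𝓞 L) L π) = _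
      rw [HeightOneSpectrum.valuation_of_algebraMap, hπw]
    have hρw' : ∀ V : HeightOneSpectrum (𝓞 L), V ≠ w → vh V ρ = 1 := by
      intro V hV
      rw [vh_eq_one]
      show V.valuation L (algebraMap (𝓞 L) L π) = _
      rw [HeightOneSpectrum.valuation_of_algebraMap, hπw' V hV]
    refine ⟨m * h, Nat.mul_pos hm hh, fun n y hy => ?_⟩
    obtain ⟨a, ha⟩ := exists_vh w y
    obtain ⟨u, z, hu, huz⟩ := H n (y ^ m * ρ ^ a) (by
      intro V hV
      by_cases hVw : V = w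
      · subst hVw
        refine ⟨0, ?_⟩
        rw [vh_eq, map_mul, map_pow, map_zpow, ha, hρw, ← ofAdd_nsmul, ← ofAdd_zsmul,
          ← ofAdd_add]
        congr 1
        simp only [nsmul_eq_mul, smul_eq_mul]
        ring
      · obtain ⟨k, hk⟩ := hy V (by
          rw [Finset.mem_insert, not_or]
          exact ⟨hVw, hV⟩)
        rw [vh_eq] at hk
        refine ⟨m * k, ?_⟩
        rw [vh_eq, map_mul, map_pow, map_zpow, hρw' V hVw, one_zpow, mul_one, hk, ← ofAdd_nsmul]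
        congr 1
        simp only [nsmul_eq_mul]
        ring)
    refine ⟨u * (ρ ^ (a * h))⁻¹, z, ?_, ?_⟩
    · intro V hV
      rw [Finset.mem_insert, not_or] at hV
      rw [← vh_eq_one, map_mul, map_inv, map_zpow, hρw' V hV.1, one_zpow, inv_one, mul_one,
        vh_eq_one]
      exact hu V hV.2
    · have h1 : (y ^ m * ρ ^ a) ^ h = y ^ (m * h) * ρ ^ (a * h) := by
        rw [mul_pow, ← pow_mul, zpow_mul, zpow_natCast]
      rw [h1] at huz
      rw [mul_right_comm, ← huz, mul_inv_cancel_right]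

end

/-- A primitive integral relation. -/
theorem exists_prim {l : ℕ} (hl : l.Prime) {n r : ℕ} (hrn : r < n) (A : Fin n → Fin r → ℤ) :
    ∃ c : Fin n → ℤ, (∃ i, ¬ (l : ℤ) ∣ c i) ∧ ∀ j, ∑ i, c i * A i j = 0 := by
  classical
  let f : (Fin n → ℤ) →ₗ[ℤ] (Fin r → ℤ) :=
    { toFun := fun c j => ∑ i, c i * A i j
      map_add' := fun c d => by
        funext j
        simp only [Pi.add_apply, add_mul, Finset.sum_add_distrib]
      map_smul' := fun a c => by
        funext j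
        simp only [Pi.smul_apply, smul_eq_mul, RingHom.id_apply, Finset.mul_sum, mul_assoc] }
  have h1 : ¬ Function.Injective f := by
    intro h
    have := le_of_fin_injective ℤ f h
    omega
  rw [← LinearMap.ker_eq_bot, ← ne_eq, Submodule.ne_bot_iff] at h1
  obtain ⟨c, hc, hc0⟩ := h1
  have hne : (Finset.univ : Finset (Fin n)).Nonempty := ⟨⟨r, hrn⟩, Finset.mem_univ _⟩
  obtain ⟨g, hg, hg1⟩ := Finset.extract_gcd c hne
  have hd : Finset.univ.gcd c ≠ 0 := by
    intro h0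
    apply hc0
    funext i
    rw [hg i (Finset.mem_univ i), h0, zero_mul]
    rfl
  refine ⟨g, ?_, ?_⟩
  · by_contra hcon
    push Not at hcon
    have h2 : (l : ℤ) ∣ Finset.univ.gcd g := Finset.dvd_gcd fun i _ => hcon i
    rw [hg1] at h2
    have h3 := Int.natAbs_dvd_natAbs.2 h2
    rw [Int.natAbs_natCast] at h3
    exact hl.one_lt.ne' (Nat.dvd_one.1 h3)
  · intro j
    have h2 : ∑ i, c i * A i j = 0 := congrFun (LinearMap.mem_ker.1 hc) j
    have h3 : ∑ i, c i * A i j = Finset.univ.gcd c * ∑ i, g i * A i j := by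
      rw [Finset.mul_sum]
      exact Finset.sum_congr rfl fun i hi => by rw [hg i hi, mul_assoc]
    rw [h3] at h2
    rcases mul_eq_zero.1 h2 with h4 | h4
    · exact absurd h4 hd
    · exact h4


section

variable {F L : Type*} [Field F] [NumberField F] [Field L] [NumberField L] [Algebra F L]

/-- the eigenspace operator `x ↦ ∏ σ, σ(x) ^ t(σ⁻¹)` modulo `N`-th powers -/
noncomputable def eop {Q : Type*} [CommGroup Q] (t : (L ≃ₐ[F] L) → ℤ) (π : Lˣ →* Q) :
    Lˣ →* Q where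
  toFun x := ∏ σ : L ≃ₐ[F] L, (π (H377.xact σ x)) ^ t σ⁻¹
  map_one' := by simp
  map_mul' x y := by
    rw [← Finset.prod_mul_distrib]
    exact Finset.prod_congr rfl fun σ _ => by rw [map_mul, map_mul, mul_zpow]

theorem eop_apply {Q : Type*} [CommGroup Q] (t : (L ≃ₐ[F] L) → ℤ) (π : Lˣ →* Q) (x : Lˣ) :
    eop t π x = ∏ σ : L ≃ₐ[F] L, (π (H377.xact σ x)) ^ t σ⁻¹ := rfl

theorem eop_xact {Q : Type*} [CommGroup Q] (t : (L ≃ₐ[F] L) → ℤ) (π : Lˣ →* Q) (N : ℕ)
    (hN : ∀ (q : Q) (a b : ℤ), (N : ℤ) ∣ a - b → q ^ a = q ^ b)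
    (ht : ∀ σ τ, (N : ℤ) ∣ t (σ * τ) - t σ * t τ) (τ : L ≃ₐ[F] L) (x : Lˣ) :
    eop t π (H377.xact τ x) = eop t π x ^ t τ := by
  rw [eop_apply, eop_apply, ← Finset.prod_zpow]
  refine Fintype.prod_bijective (fun σ : L ≃ₐ[F] L => σ * τ) (Group.mulRight_bijective τ) _ _
    fun σ => ?_
  rw [← H377.xact_mul, ← zpow_mul]
  apply hN
  have h1 : σ⁻¹ = τ * (σ * τ)⁻¹ := by group
  have h2 := ht τ (σ * τ)⁻¹
  rw [← h1] at h2
  rw [mul_comm (t (σ * τ)⁻¹)]
  exact h2

/-- the group modulo `N`-th powers -/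
theorem exists_quot.{w} (G : Type w) [CommGroup G] (N : ℕ) :
    ∃ (Q : Type w) (_ : CommGroup Q) (π : G →* Q), Function.Surjective π ∧
      (∀ x, π (x ^ N) = 1) ∧ ∀ x, π x = 1 → ∃ z, x = z ^ N := by
  refine ⟨G ⧸ (powMonoidHom N : G →* G).range, inferInstance, QuotientGroup.mk' _,
    QuotientGroup.mk'_surjective _, ?_, ?_⟩
  · intro x
    exact (QuotientGroup.eq_one_iff _).2 ⟨x, rfl⟩
  · intro x hx
    obtain ⟨z, hz⟩ := (QuotientGroup.eq_one_iff _).1 hx
    exact ⟨z, hz.symm⟩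

end

/-- **(D1)** -/
theorem propD1.{u} : ALL.PropD1.{u} := by
  intro F L _ _ _ _ _ _ l hl
  classical
  obtain ⟨A', -, hA'⟩ := H377.above_finite (F := L) hl
  obtain ⟨h, hh, hcls⟩ := clsT A'
  obtain ⟨r, g, M₀, hr, hM₀, hgen⟩ := H377.lemR (F := F) (L := L) hl
  refine ⟨h * (M₀ * Fintype.card (L ≃ₐ[F] L)),
    Nat.mul_pos hh (Nat.mul_pos hM₀ Fintype.card_pos), ?_⟩
  intro k n hn y t hy0 ht ht1 hy hval
  set N := l ^ k with hNdef
  set Y : Fin n → Lˣ := fun i => Units.mk0 (y i) (hy0 i) with hY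
  obtain ⟨Q, _, π, hπs, hπN, hπ1⟩ := exists_quot Lˣ N
  have hQN : ∀ q : Q, q ^ N = 1 := by
    intro q
    obtain ⟨x, rfl⟩ := hπs q
    rw [← map_pow]
    exact hπN x
  have hN : ∀ (q : Q) (a b : ℤ), (N : ℤ) ∣ a - b → q ^ a = q ^ b := by
    rintro q a b ⟨d, hd⟩
    have h1 : a = b + N * d := by linarith
    rw [h1, zpow_add, zpow_mul, zpow_natCast, hQN, one_zpow, mul_one]
  have hYπ : ∀ i σ, π (H377.xact σ (Y i)) = π (Y i) ^ t σ := by
    intro i σ
    obtain ⟨z, hz0, hz⟩ := hy i σ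
    have h1 : H377.xact σ (Y i) = Y i ^ t σ * Units.mk0 z hz0 ^ N := by
      apply Units.ext
      rw [H377.xact_coe, Units.val_mul, Units.val_zpow_eq_zpow_val, Units.val_pow_eq_pow_val]
      exact hz
    rw [h1, map_mul, hπN, mul_one, map_zpow]
  choose u z hu huz using fun i => hcls N (Y i) (fun V hV => hval i V (fun h => hV ((hA' V).2 h)))
  have huπ : ∀ i, π (Y i) ^ h = π (u i) := by
    intro i
    rw [← map_pow, huz i, map_mul, hπN, mul_one]
  have huσ : ∀ i σ, π (H377.xact σ (u i)) = π (u i) ^ t σ := by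
    intro i σ
    have h1 : H377.xact σ (Y i) ^ h = H377.xact σ (u i) * H377.xact σ (z i) ^ N := by
      rw [← map_pow, huz i, map_mul, map_pow]
    have h2 := congrArg π h1
    rw [map_mul, hπN, mul_one, map_pow, hYπ] at h2
    rw [← h2, ← zpow_natCast, ← zpow_mul, mul_comm, zpow_mul, zpow_natCast, huπ]
  choose f hf using fun i => hgen (u i) (fun V hV => hu i V (fun h => hV ((hA' V).1 h)))
  -- the operator
  have hΘu : ∀ i, eop t π (u i) = π (u i) ^ Fintype.card (L ≃ₐ[F] L) := by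
    intro i
    rw [eop_apply, ← Finset.card_univ, ← Finset.prod_const]
    refine Finset.prod_congr rfl fun σ _ => ?_
    rw [huσ, ← zpow_mul]
    conv_rhs => rw [← zpow_one (π (u i))]
    apply hN
    have h1 := ht σ σ⁻¹
    rw [mul_inv_cancel] at h1
    have h2 : t σ * t σ⁻¹ - 1 = (t 1 - 1) - (t 1 - t σ * t σ⁻¹) := by ring
    rw [h2]
    exact dvd_sub ht1 h1
  obtain ⟨c, hc, hcA⟩ := exists_prim hl (lt_of_le_of_lt hr hn)
    (fun i j => ∑ τ : L ≃ₐ[F] L, t τ * f i (j, τ))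
  have hΘM : ∀ i, eop t π (u i) ^ M₀ =
      ∏ j, eop t π (g j) ^ (∑ τ : L ≃ₐ[F] L, t τ * f i (j, τ)) := by
    intro i
    rw [← map_pow, hf i, map_prod, Fintype.prod_prod_type]
    refine Finset.prod_congr rfl fun j _ => ?_
    rw [Finset.prod_congr rfl (g := fun τ => eop t π (g j) ^ (t τ * f i (j, τ)))]
    · induction (Finset.univ : Finset (L ≃ₐ[F] L)) using Finset.induction_on with
      | empty => simp
      | insert a s ha ih => rw [Finset.prod_insert ha, Finset.sum_insert ha, zpow_add, ih]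
    · intro τ _
      rw [map_zpow, eop_xact t π N hN ht, zpow_mul]
  refine ⟨c, hc, ?_⟩
  have hfin : π ((∏ i, Y i ^ c i) ^ (h * (M₀ * Fintype.card (L ≃ₐ[F] L)))) = 1 := by
    have h1 : ∀ i, π (Y i) ^ (h * (M₀ * Fintype.card (L ≃ₐ[F] L))) =
        ∏ j, eop t π (g j) ^ (∑ τ : L ≃ₐ[F] L, t τ * f i (j, τ)) := by
      intro i
      rw [← hΘM, hΘu, pow_mul, huπ, ← pow_mul, mul_comm M₀]
    rw [map_pow, map_prod, ← Finset.prod_pow]
    have h2 : ∀ i, (π (Y i ^ c i)) ^ (h * (M₀ * Fintype.card (L ≃ₐ[F] L))) =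
        ∏ j, eop t π (g j) ^ (c i * ∑ τ : L ≃ₐ[F] L, t τ * f i (j, τ)) := by
      intro i
      rw [map_zpow, ← zpow_natCast, ← zpow_mul, mul_comm, zpow_mul, zpow_natCast, h1,
        ← Finset.prod_zpow]
      exact Finset.prod_congr rfl fun j _ => by rw [← zpow_mul, mul_comm]
    rw [Finset.prod_congr rfl fun i _ => h2 i, Finset.prod_comm]
    apply Finset.prod_eq_one
    intro j _
    have h3 : ∏ i, eop t π (g j) ^ (c i * ∑ τ : L ≃ₐ[F] L, t τ * f i (j, τ)) =
        eop t π (g j) ^ (∑ i, c i * ∑ τ : L ≃ₐ[F] L, t τ * f i (j, τ)) := by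
      induction (Finset.univ : Finset (Fin n)) using Finset.induction_on with
      | empty => simp
      | insert a s ha ih => rw [Finset.prod_insert ha, Finset.sum_insert ha, zpow_add, ih]
    rw [h3, hcA, zpow_zero]
  obtain ⟨w, hw⟩ := hπ1 _ hfin
  refine ⟨(w : L), w.ne_zero, ?_⟩
  have h1 := congrArg (fun x : Lˣ => (x : L)) hw
  simp only [Units.val_pow_eq_pow_val, Units.coe_prod,
    Units.val_zpow_eq_zpow_val] at h1
  exact h1

end Vale.Agent.P024.H903
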