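import Vale.Agent.P024.H903.VUnit
import Vale.Agent.P024.H157.Her3
import Vale.Agent.P024.M3.Spec

/-!
P024, (M3): the block (U).
-/

namespace Vale.Agent.P024.H903

open NumberField InfinitePlace Module IsDedekindDomain

section

variable {F L : Type*} [Field F] [NumberField F] [Field L] [NumberField L] [Algebra F L]

omit [NumberField F] [NumberField L] in
theorem under_gp (g : L ≃ₐ[F] L) (w : HeightOneSpectrum (𝓞 L)) :
    (gp g w).asIdeal.under (𝓞 F) = w.asIdeal.under (𝓞 F) := by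
  ext x
  rw [Ideal.under_def, Ideal.under_def, Ideal.mem_comap, Ideal.mem_comap, mem_gp]
  have h : RingOfIntegers.mapRingEquiv ((g⁻¹ : L ≃ₐ[F] L) : L ≃+* L) (algebraMap (𝓞 F) (𝓞 L) x) =
      algebraMap (𝓞 F) (𝓞 L) x := by
    apply RingOfIntegers.ext
    exact (g⁻¹ : L ≃ₐ[F] L).commutes (x : F)
  rw [h]

theorem exists_gp [IsGalois F L] (w y : HeightOneSpectrum (𝓞 L))
    (h : w.asIdeal.under (𝓞 F) = y.asIdeal.under (𝓞 F)) : ∃ g : L ≃ₐ[F] L, w = gp g y := by
  have := w.isPrime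
  have := y.isPrime
  obtain ⟨σ, hσ⟩ := Algebra.IsInvariant.exists_smul_of_under_eq (𝓞 F) (𝓞 L) (L ≃ₐ[F] L)
    y.asIdeal w.asIdeal h.symm
  refine ⟨σ, ?_⟩
  apply HeightOneSpectrum.ext
  rw [hσ]
  ext x
  rw [mem_gp, Ideal.mem_pointwise_smul_iff_inv_smul_mem]
  rfl

omit [NumberField L] in
theorem exists_over (v : HeightOneSpectrum (𝓞 F)) :
    ∃ w : HeightOneSpectrum (𝓞 L), w.asIdeal.under (𝓞 F) = v.asIdeal := by
  have := v.isMaximal
  obtain ⟨Q, hQ, hQv⟩ := Ideal.exists_ideal_over_maximal_of_isIntegral (S := 𝓞 L) v.asIdeal (by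
    rw [(RingHom.injective_iff_ker_eq_bot _).mp
      (FaithfulSMul.algebraMap_injective (𝓞 F) (𝓞 L))]
    exact bot_le)
  refine ⟨⟨Q, hQ.isPrime, ?_⟩, hQv⟩
  rintro rfl
  apply v.ne_bot
  rw [← hQv, ← RingHom.ker_eq_comap_bot, (RingHom.injective_iff_ker_eq_bot _).mp
      (FaithfulSMul.algebraMap_injective (𝓞 F) (𝓞 L))]

end

/-- **Block (U)** of (M3). -/
theorem propU : M3.PropU := by
  intro F L _ _ _ _ _ _ _ σ hσ hodd v hsplit
  obtain ⟨y, hy⟩ := exists_over (L := L) v
  have hover : ∀ w : HeightOneSpectrum (𝓞 L), w.asIdeal.under (𝓞 F) = v.asIdeal ↔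
      ∃ g : L ≃ₐ[F] L, w = gp g y := by
    intro w
    constructor
    · intro h
      exact exists_gp w y (h.trans hy.symm)
    · rintro ⟨g, rfl⟩
      rw [under_gp, hy]
  have hfree : ∀ g : L ≃ₐ[F] L, gp g y = y → g = 1 := by
    intro g hg
    apply hsplit y hy g
    intro x
    have h := val_gp g y x
    rwa [hg] at h
  obtain ⟨u, huU, hug, hfin, e, he0, heg, hrel⟩ := vmink hodd y hfree (M3.UU L v) (by
    intro x
    show (∀ w : HeightOneSpectrum (𝓞 L), w.asIdeal.under (𝓞 F) ≠ v.asIdeal →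
      w.valuation L (x : L) = 1) ↔ _
    refine forall_congr' fun w => ?_
    rw [ne_eq, hover, not_exists])
  let ρ : (L ≃ₐ[F] L) →* MulAut Lˣ :=
    { toFun := fun g => Units.mapEquiv (g : L ≃* L)
      map_one' := by ext; rfl
      map_mul' := fun g h => by ext; rfl }
  have key := H157.herb (X := InfinitePlace L ⊕ (L ≃ₐ[F] L)) ρ hσ (by
      rintro g (w | g') hx
      · exact free_places hodd g w (Sum.inl_injective hx)
      · have h1 : g * g' = g' := Sum.inr_injective hx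
        exact mul_eq_right.mp h1)
    (M3.dd σ) (M3.nn F L) (fun x => rfl) (fun x => rfl) (M3.UU L v) (by
      intro g x hx w hw
      have h1 : gp g (gp g⁻¹ w) = w := by rw [← gp_mul, mul_inv_cancel, gp_one]
      have h2 := val_gp g (gp g⁻¹ w) (x : L)
      rw [h1] at h2
      refine h2.trans (hx _ ?_)
      rw [under_gp]
      exact hw) u huU hug hfin e he0 heg hrel
  rw [IsGalois.card_aut_eq_finrank] at key
  exact ⟨key.2.2, key.1⟩

end Vale.Agent.P024.H903
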