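import Mathlib

/-!
P024, (M3), block (U): Minkowski units of a Galois extension `L / F` of odd degree, with all their
multiplicative relations.
-/

namespace Vale.Agent.P024.H903

open NumberField InfinitePlace Module

/-- Sign lemma: a relation between the columns of a matrix with negative entries off the diagonal
and vanishing column sums has all its entries of the same sign. -/
theorem sign_lemma {W : Type*} [Fintype W] [DecidableEq W] (M : W → W → ℝ)
    (hneg : ∀ w' w, w' ≠ w → M w' w < 0) (hcol : ∀ w, ∑ w', M w' w = 0) (a : W → ℝ)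
    (ha : ∀ w', ∑ w, a w * M w' w = 0) {w₀ : W} (h0 : 0 < a w₀) : ∀ w, 0 < a w := by
  by_contra hcon
  push Not at hcon
  obtain ⟨w₁, h1⟩ := hcon
  set P : Finset W := Finset.univ.filter fun w => 0 < a w with hP
  have hw₀ : w₀ ∈ P := by simp [hP, h0]
  have hw₁ : w₁ ∈ Pᶜ := by simp [hP, h1]
  have hS : ∑ w, a w * ∑ w' ∈ P, M w' w = 0 := by
    have : ∑ w' ∈ P, ∑ w, a w * M w' w = 0 := Finset.sum_eq_zero fun w' _ => ha w'
    rw [Finset.sum_comm] at this
    rw [← this]
    exact Finset.sum_congr rfl fun w _ => Finset.mul_sum _ _ _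
  have hpos : ∀ w ∈ P, 0 < ∑ w' ∈ P, M w' w := by
    intro w hw
    have h2 : ∑ w' ∈ Pᶜ, M w' w < 0 := by
      apply Finset.sum_neg
      · intro w' hw'
        apply hneg
        rintro rfl
        exact (Finset.mem_compl.mp hw') hw
      · exact ⟨w₁, hw₁⟩
    have h3 := Finset.sum_add_sum_compl P fun w' => M w' w
    rw [hcol] at h3
    linarith
  have hneg' : ∀ w, w ∉ P → ∑ w' ∈ P, M w' w < 0 := by
    intro w hw
    apply Finset.sum_neg
    · intro w' hw'
      apply hneg
      rintro rfl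
      exact hw hw'
    · exact ⟨w₀, hw₀⟩
  have hnn : ∀ w ∈ (Finset.univ : Finset W), 0 ≤ a w * ∑ w' ∈ P, M w' w := by
    intro w _
    by_cases hw : w ∈ P
    · exact mul_nonneg (Finset.mem_filter.mp hw).2.le (hpos w hw).le
    · have h4 : a w ≤ 0 := by
        by_contra h5
        exact hw (Finset.mem_filter.mpr ⟨Finset.mem_univ w, not_le.mp h5⟩)
      exact mul_nonneg_of_nonpos_of_nonpos h4 (hneg' w hw).le
  have h6 := (Finset.sum_eq_zero_iff_of_nonneg hnn).mp hS w₀ (Finset.mem_univ w₀)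
  exact (mul_pos h0 (hpos w₀ hw₀)).ne' h6

section

variable {F L : Type*} [Field F] [NumberField F] [Field L] [NumberField L] [Algebra F L]

/-- In odd degree the Galois group acts freely on the infinite places. -/
theorem free_places [IsGalois F L] (hodd : Odd (finrank F L)) (g : L ≃ₐ[F] L)
    (w : InfinitePlace L) (h : g • w = w) : g = 1 := by
  have hmem : g ∈ MulAction.stabilizer (L ≃ₐ[F] L) w := h
  have hdvd : Nat.card (MulAction.stabilizer (L ≃ₐ[F] L) w) ∣ finrank F L := by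
    rw [← IsGalois.card_aut_eq_finrank F L]
    exact Subgroup.card_subgroup_dvd_card _
  rcases nat_card_stabilizer_eq_one_or_two F w with h1 | h2
  · rw [Subgroup.card_eq_one] at h1
    rw [h1] at hmem
    exact Subgroup.mem_bot.mp hmem
  · rw [h2] at hdvd
    exact absurd (even_iff_two_dvd.mpr hdvd) (Nat.not_even_iff_odd.mpr hodd)

/-- The action of an automorphism on the units. -/
noncomputable def uact (g : L ≃ₐ[F] L) : (𝓞 L)ˣ →* (𝓞 L)ˣ :=
  Units.map (RingOfIntegers.mapRingHom (g : L ≃ₐ[F] L)).toMonoidHom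

omit [NumberField F] [NumberField L] in
theorem uact_coe (g : L ≃ₐ[F] L) (x : (𝓞 L)ˣ) : ((uact g x : 𝓞 L) : L) = g ((x : 𝓞 L) : L) := rfl

omit [NumberField F] [NumberField L] in
theorem uact_injective (g : L ≃ₐ[F] L) : Function.Injective (uact g) := by
  intro x y h
  apply Units.ext
  apply RingOfIntegers.ext
  apply g.injective
  rw [← uact_coe, ← uact_coe, h]

/-- An equivariant family of Minkowski units. -/
theorem exists_family [IsGalois F L] (hodd : Odd (finrank F L)) :
    ∃ u : InfinitePlace L → (𝓞 L)ˣ,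
      (∀ (g : L ≃ₐ[F] L) (w : InfinitePlace L), u (g • w) = uact g (u w)) ∧
      ∀ w w' : InfinitePlace L, w' ≠ w → Real.log (w' ((u w : 𝓞 L) : L)) < 0 := by
  classical
  have hη := fun w : InfinitePlace L => Units.dirichletUnitTheorem.exists_unit L w
  choose η hη using hη
  let r : InfinitePlace L → InfinitePlace L := fun w =>
    (Quotient.mk (MulAction.orbitRel (L ≃ₐ[F] L) (InfinitePlace L)) w).out
  have hr : ∀ w, ∃ g : L ≃ₐ[F] L, g • r w = w := by
    intro w
    have h := Quotient.mk_out (s := MulAction.orbitRel (L ≃ₐ[F] L) (InfinitePlace L)) w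
    have h2 : r w ∈ MulAction.orbit (L ≃ₐ[F] L) w := MulAction.orbitRel_apply.mp h
    obtain ⟨g, hg⟩ := h2
    refine ⟨g⁻¹, ?_⟩
    have hg' : g • w = r w := hg
    rw [← hg', inv_smul_smul]
  choose γ hγ using hr
  have hrg : ∀ (g : L ≃ₐ[F] L) w, r (g • w) = r w := by
    intro g w
    have : Quotient.mk (MulAction.orbitRel (L ≃ₐ[F] L) (InfinitePlace L)) (g • w) =
        Quotient.mk (MulAction.orbitRel (L ≃ₐ[F] L) (InfinitePlace L)) w := by
      apply Quotient.sound
      exact MulAction.orbitRel_apply.mpr ⟨g, rfl⟩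
    show (Quotient.mk _ (g • w)).out = (Quotient.mk _ w).out
    rw [this]
  have hγg : ∀ (g : L ≃ₐ[F] L) w, γ (g • w) = g * γ w := by
    intro g w
    have h1 : γ (g • w) • r w = g • w := by
      rw [← hrg g w]; exact hγ (g • w)
    have h2 : (g * γ w) • r w = g • w := by rw [mul_smul, hγ]
    have h3 : ((g * γ w)⁻¹ * γ (g • w)) • r w = r w := by
      rw [mul_smul, h1, ← h2, inv_smul_smul]
    have h4 := free_places hodd _ _ h3
    rw [inv_mul_eq_one] at h4
    exact h4.symm
  refine ⟨fun w => uact (γ w) (η (r w)), ?_, ?_⟩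
  · intro g w
    apply Units.ext
    apply RingOfIntegers.ext
    rw [uact_coe, uact_coe, uact_coe, hrg, hγg]
    rfl
  · intro w w' hw
    have h1 : w' (((uact (γ w) (η (r w)) : (𝓞 L)ˣ) : 𝓞 L) : L) =
        ((γ w)⁻¹ • w') ((η (r w) : 𝓞 L) : L) := by
      rw [InfinitePlace.smul_apply, uact_coe]
      rfl
    rw [h1]
    apply hη
    intro h2
    apply hw
    rw [inv_smul_eq_iff, hγ] at h2
    exact h2

/-- `∏ w, u w ^ a w` as a homomorphism. -/
noncomputable def prodHom (u : InfinitePlace L → (𝓞 L)ˣ) :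
    (InfinitePlace L → ℤ) →+ Additive (𝓞 L)ˣ where
  toFun a := Additive.ofMul (∏ w, u w ^ a w)
  map_zero' := by simp
  map_add' a b := by
    rw [← ofMul_mul, ← Finset.prod_mul_distrib]
    congr 1
    exact Finset.prod_congr rfl fun w _ => by rw [Pi.add_apply, zpow_add]

omit [NumberField L] in
theorem c_mul (x y : (𝓞 L)ˣ) :
    (((x * y : (𝓞 L)ˣ) : 𝓞 L) : L) = ((x : 𝓞 L) : L) * ((y : 𝓞 L) : L) := rfl

omit [NumberField L] in
theorem c_zpow (x : (𝓞 L)ˣ) (n : ℤ) :
    (((x ^ n : (𝓞 L)ˣ) : 𝓞 L) : L) = ((x : 𝓞 L) : L) ^ n := Units.coe_zpow x n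

theorem log_prod (u : InfinitePlace L → (𝓞 L)ˣ) (a : InfinitePlace L → ℤ)
    (w' : InfinitePlace L) :
    Real.log (w' (((∏ w, u w ^ a w : (𝓞 L)ˣ) : 𝓞 L) : L)) =
      ∑ w, (a w : ℝ) * Real.log (w' ((u w : 𝓞 L) : L)) := by
  have h : w' (((∏ w, u w ^ a w : (𝓞 L)ˣ) : 𝓞 L) : L) =
      ∏ w, (w' ((u w : 𝓞 L) : L)) ^ a w := by
    classical
    induction (Finset.univ : Finset (InfinitePlace L)) using Finset.induction_on with
    | empty => simp
    | insert w s hw ih =>
      rw [Finset.prod_insert hw, Finset.prod_insert hw, c_mul, map_mul, ih,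
        c_zpow, map_zpow₀]
  rw [h, Real.log_prod]
  · exact Finset.sum_congr rfl fun w _ => Real.log_zpow _ _
  · intro w _
    exact zpow_ne_zero _ (Units.pos_at_place (u w) w').ne'

/-- A relation (modulo torsion) has all its entries of the same sign. -/
theorem rel_pos (u : InfinitePlace L → (𝓞 L)ˣ)
    (hu : ∀ w w' : InfinitePlace L, w' ≠ w → Real.log (w' ((u w : 𝓞 L) : L)) < 0)
    (a : InfinitePlace L → ℤ) (ha : (∏ w, u w ^ a w) ∈ Units.torsion L)
    {w₀ : InfinitePlace L} (h0 : 0 < a w₀) : ∀ w, 0 < a w := by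
  classical
  have h := sign_lemma (fun w' w : InfinitePlace L =>
    (w'.mult : ℝ) * Real.log (w' ((u w : 𝓞 L) : L))) ?_ ?_ (fun w => (a w : ℝ)) ?_ (w₀ := w₀) ?_
  · intro w
    exact_mod_cast h w
  · intro w' w hw
    exact mul_neg_of_pos_of_neg (by exact_mod_cast mult_pos) (hu w w' hw)
  · intro w
    exact Units.sum_mult_mul_log (u w)
  · intro w'
    have h1 := log_prod u a w'
    rw [(Units.mem_torsion L).mp ha w', Real.log_one] at h1
    have h2 : ∑ w, (a w : ℝ) * ((w'.mult : ℝ) * Real.log (w' ((u w : 𝓞 L) : L))) =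
        (w'.mult : ℝ) * ∑ w, (a w : ℝ) * Real.log (w' ((u w : 𝓞 L) : L)) := by
      rw [Finset.mul_sum]
      exact Finset.sum_congr rfl fun w _ => by ring
    rw [h2, ← h1, mul_zero]
  · exact_mod_cast h0

theorem rel_zero (u : InfinitePlace L → (𝓞 L)ˣ)
    (hu : ∀ w w' : InfinitePlace L, w' ≠ w → Real.log (w' ((u w : 𝓞 L) : L)) < 0)
    (a : InfinitePlace L → ℤ) (ha : (∏ w, u w ^ a w) ∈ Units.torsion L)
    {w₀ : InfinitePlace L} (h0 : a w₀ = 0) : a = 0 := by
  funext w
  rcases lt_trichotomy (a w) 0 with h | h | h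
  · exfalso
    have h1 : (∏ w, u w ^ (-a) w) ∈ Units.torsion L := by
      have : (∏ w, u w ^ (-a) w) = (∏ w, u w ^ a w)⁻¹ := by
        rw [← Finset.prod_inv_distrib]
        exact Finset.prod_congr rfl fun w _ => by rw [Pi.neg_apply, zpow_neg]
      rw [this]
      exact inv_mem ha
    have h2 := rel_pos u hu (-a) h1 (w₀ := w) (by rw [Pi.neg_apply]; linarith) w₀
    rw [Pi.neg_apply, h0] at h2
    exact absurd h2 (by decide)
  · exact h
  · exfalso
    have h2 := rel_pos u hu a ha (w₀ := w) h w₀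
    rw [h0] at h2
    exact absurd h2 (by decide)

/-- `prodHom u` as a `ℤ`-linear map. -/
noncomputable def prodLin (u : InfinitePlace L → (𝓞 L)ˣ) :
    (InfinitePlace L → ℤ) →ₗ[ℤ] Additive (𝓞 L)ˣ := (prodHom u).toIntLinearMap

theorem prodLin_apply (u : InfinitePlace L → (𝓞 L)ˣ) (a : InfinitePlace L → ℤ) :
    prodLin u a = Additive.ofMul (∏ w, u w ^ a w) := rfl

theorem prodLin_eq_zero (u : InfinitePlace L → (𝓞 L)ˣ) (a : InfinitePlace L → ℤ) :
    prodLin u a = 0 ↔ ∏ w, u w ^ a w = 1 := by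
  rw [prodLin_apply, ofMul_eq_zero]

theorem finrank_ker_le (u : InfinitePlace L → (𝓞 L)ˣ)
    (hu : ∀ w w' : InfinitePlace L, w' ≠ w → Real.log (w' ((u w : 𝓞 L) : L)) < 0) :
    finrank ℤ (LinearMap.ker (prodLin u)) ≤ 1 := by
  obtain ⟨w₀⟩ : Nonempty (InfinitePlace L) := inferInstance
  have hinj : Function.Injective
      ((LinearMap.proj w₀ : (InfinitePlace L → ℤ) →ₗ[ℤ] ℤ).comp
        (LinearMap.ker (prodLin u)).subtype) := by
    rw [← LinearMap.ker_eq_bot, LinearMap.ker_eq_bot']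
    rintro ⟨a, ha⟩ h0
    have h2 := (prodLin_eq_zero u a).mp (LinearMap.mem_ker.mp ha)
    have h1 := rel_zero u hu a (by rw [h2]; exact one_mem _) (w₀ := w₀) h0
    exact Subtype.ext h1
  have := LinearMap.finrank_le_finrank_of_injective hinj
  rwa [Module.finrank_self] at this

theorem finrank_facts (u : InfinitePlace L → (𝓞 L)ˣ)
    (hu : ∀ w w' : InfinitePlace L, w' ≠ w → Real.log (w' ((u w : 𝓞 L) : L)) < 0) :
    finrank ℤ (LinearMap.ker (prodLin u)) = 1 ∧
      finrank ℤ (LinearMap.range (prodLin u)) = finrank ℤ (Additive (𝓞 L)ˣ) := by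
  have h1 := finrank_ker_le u hu
  have h2 := Submodule.finrank_quotient_add_finrank (LinearMap.ker (prodLin u))
  rw [(prodLin u).quotKerEquivRange.finrank_eq, Module.finrank_fintype_fun_eq_card] at h2
  have h3 := Submodule.finrank_le (LinearMap.range (prodLin u))
  rw [Units.finrank_eq, Units.rank] at h3 ⊢
  have h4 : 0 < Fintype.card (InfinitePlace L) := Fintype.card_pos
  omega

theorem finite_index (u : InfinitePlace L → (𝓞 L)ˣ)
    (hu : ∀ w w' : InfinitePlace L, w' ≠ w → Real.log (w' ((u w : 𝓞 L) : L)) < 0) :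
    (Subgroup.closure (Set.range u)).FiniteIndex := by
  have h1 : Finite (Additive (𝓞 L)ˣ ⧸ LinearMap.range (prodLin u)) := by
    apply Module.finite_of_fg_torsion
    rw [← Module.finrank_eq_zero_iff_isTorsion]
    have h2 := Submodule.finrank_quotient_add_finrank (LinearMap.range (prodLin u))
    rw [(finrank_facts u hu).2] at h2
    omega
  have h3 : (LinearMap.range (prodLin u)).toAddSubgroup.index ≠ 0 := by
    rw [AddSubgroup.index_ne_zero_iff_finite]
    exact h1
  have h4 : (LinearMap.range (prodLin u)).toAddSubgroup ≤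
      Subgroup.toAddSubgroup (Subgroup.closure (Set.range u)) := by
    rintro x ⟨a, rfl⟩
    exact Subgroup.prod_mem (Subgroup.closure (Set.range u)) fun w _ =>
      Subgroup.zpow_mem _ (Subgroup.subset_closure (Set.mem_range_self w)) _
  have h5 : (Subgroup.toAddSubgroup (Subgroup.closure (Set.range u))).index ≠ 0 := by
    intro h0
    have h6 := AddSubgroup.index_dvd_of_le h4
    rw [h0, zero_dvd_iff] at h6
    exact h3 h6
  rw [Subgroup.finiteIndex_iff]
  exact h5

/-- All the relations of a Minkowski family. -/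
theorem exists_rel (u : InfinitePlace L → (𝓞 L)ˣ)
    (hu : ∀ w w' : InfinitePlace L, w' ≠ w → Real.log (w' ((u w : 𝓞 L) : L)) < 0) :
    ∃ e : InfinitePlace L → ℤ, (∀ w, 0 < e w) ∧
      ∀ a : InfinitePlace L → ℤ, ∏ w, u w ^ a w = 1 ↔ ∃ k : ℤ, a = k • e := by
  obtain ⟨w₀⟩ : Nonempty (InfinitePlace L) := inferInstance
  let K : AddSubgroup (InfinitePlace L → ℤ) := (prodHom u).ker
  have hK : ∀ a, a ∈ K ↔ ∏ w, u w ^ a w = 1 := by
    intro a
    rw [AddMonoidHom.mem_ker]
    exact ofMul_eq_zero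
  have hKt : ∀ a, a ∈ K → (∏ w, u w ^ a w) ∈ Units.torsion L := by
    intro a ha
    rw [(hK a).mp ha]
    exact one_mem _
  -- a nonzero relation
  obtain ⟨a, ha0, haK⟩ : ∃ a, a ≠ 0 ∧ a ∈ K := by
    have h1 := (finrank_facts u hu).1
    have h2 : (LinearMap.ker (prodLin u)) ≠ ⊥ := by
      intro h
      rw [h, finrank_bot] at h1
      exact absurd h1 (by decide)
    obtain ⟨b, hb, hb0⟩ := Submodule.exists_mem_ne_zero_of_ne_bot h2
    exact ⟨b, hb0, (hK b).mpr ((prodLin_eq_zero u b).mp (LinearMap.mem_ker.mp hb))⟩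
  obtain ⟨d, hd⟩ := Int.subgroup_cyclic (K.map (Pi.evalAddMonoidHom (fun _ => ℤ) w₀))
  have hdm : d ∈ K.map (Pi.evalAddMonoidHom (fun _ : InfinitePlace L => ℤ) w₀) := by
    rw [hd]; exact AddSubgroup.subset_closure rfl
  obtain ⟨e, heK, hed⟩ := hdm
  have hed' : e w₀ = d := hed
  have hd0 : d ≠ 0 := by
    rintro rfl
    have : a w₀ ∈ K.map (Pi.evalAddMonoidHom (fun _ : InfinitePlace L => ℤ) w₀) := ⟨a, haK, rfl⟩
    rw [hd, AddSubgroup.mem_closure_singleton] at this
    obtain ⟨k, hk⟩ := this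
    rw [smul_zero] at hk
    exact ha0 (rel_zero u hu a (hKt a haK) (w₀ := w₀) hk.symm)
  have hgen : ∀ b, b ∈ K ↔ ∃ k : ℤ, b = k • e := by
    intro b
    constructor
    · intro hb
      have : b w₀ ∈ K.map (Pi.evalAddMonoidHom (fun _ : InfinitePlace L => ℤ) w₀) := ⟨b, hb, rfl⟩
      rw [hd, AddSubgroup.mem_closure_singleton] at this
      obtain ⟨k, hk⟩ := this
      refine ⟨k, ?_⟩
      have hbk : b - k • e ∈ K := sub_mem hb (zsmul_mem heK k)
      have h0 := rel_zero u hu _ (hKt _ hbk) (w₀ := w₀) (by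
        rw [Pi.sub_apply, Pi.smul_apply, hed', hk, sub_self])
      exact sub_eq_zero.mp h0
    · rintro ⟨k, rfl⟩
      exact zsmul_mem heK k
  rcases lt_or_gt_of_ne hd0 with hneg | hpos
  · refine ⟨-e, ?_, ?_⟩
    · exact rel_pos u hu (-e) (hKt _ (neg_mem heK)) (w₀ := w₀) (by
        rw [Pi.neg_apply, hed']; linarith)
    · intro b
      rw [← hK, hgen]
      constructor
      · rintro ⟨k, rfl⟩
        exact ⟨-k, by rw [neg_smul, smul_neg, neg_neg]⟩
      · rintro ⟨k, rfl⟩
        exact ⟨-k, by rw [neg_smul, smul_neg]⟩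
  · refine ⟨e, ?_, ?_⟩
    · exact rel_pos u hu e (hKt _ heK) (w₀ := w₀) (by rw [hed']; exact hpos)
    · intro b
      rw [← hK, hgen]

end

/-- **Minkowski units** of a Galois extension of odd degree, with all their relations. -/
theorem mink {F L : Type*} [Field F] [NumberField F] [Field L] [NumberField L] [Algebra F L]
    [IsGalois F L] (hodd : Odd (Module.finrank F L)) :
    (∀ (g : L ≃ₐ[F] L) (w : InfinitePlace L), g • w = w → g = 1) ∧
      ∃ u : InfinitePlace L → (𝓞 L)ˣ,
        (∀ (g : L ≃ₐ[F] L) (w : InfinitePlace L),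
          ((u (g • w) : 𝓞 L) : L) = g ((u w : 𝓞 L) : L)) ∧
        (Subgroup.closure (Set.range u)).FiniteIndex ∧
        ∃ e : InfinitePlace L → ℤ, (∀ w, 0 < e w) ∧
          (∀ (g : L ≃ₐ[F] L) (w : InfinitePlace L), e (g • w) = e w) ∧
          ∀ a : InfinitePlace L → ℤ, ∏ w, u w ^ a w = 1 ↔ ∃ k : ℤ, a = k • e := by
  refine ⟨free_places hodd, ?_⟩
  obtain ⟨u, hug, hul⟩ := exists_family (F := F) (L := L) hodd
  obtain ⟨e, hpos, hrel⟩ := exists_rel u hul
  refine ⟨u, fun g w => by rw [hug]; rfl, finite_index u hul, e, hpos, ?_, hrel⟩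
  intro g
  have h1 : ∏ w, u w ^ e (g • w) = 1 := by
    apply uact_injective g
    rw [map_prod, map_one]
    have h2 : ∏ w, uact g (u w ^ e (g • w)) = ∏ w, u (g • w) ^ e (g • w) :=
      Finset.prod_congr rfl fun w _ => by rw [map_zpow, hug]
    rw [h2]
    have h3 := Fintype.prod_equiv (MulAction.toPerm g : Equiv.Perm (InfinitePlace L))
      (fun w => u (g • w) ^ e (g • w)) (fun w => u w ^ e w) fun w => rfl
    rw [h3]
    exact (hrel e).mpr ⟨1, (one_smul _ _).symm⟩
  obtain ⟨k, hk⟩ := (hrel fun w => e (g • w)).mp h1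
  have hk' : ∀ w, e (g • w) = k * e w := fun w => by
    have := congrFun hk w
    rwa [Pi.smul_apply, smul_eq_mul] at this
  have hsum : ∑ w, e (g • w) = ∑ w, e w :=
    Fintype.sum_equiv (MulAction.toPerm g : Equiv.Perm (InfinitePlace L)) _ _ fun w => rfl
  have hS : 0 < ∑ w, e w := Finset.sum_pos (fun w _ => hpos w) Finset.univ_nonempty
  have hk1 : k = 1 := by
    rw [Finset.sum_congr rfl fun w _ => hk' w, ← Finset.mul_sum] at hsum
    exact mul_right_cancel₀ hS.ne' (by rw [hsum, one_mul])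
  intro w
  rw [hk', hk1, one_mul]

end Vale.Agent.P024.H903
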