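import Mathlib

/-!
P024, block [INV] (helper644, note 19408): an involution of a quadratically closed field of
characteristic `0` inverts the roots of unity of odd order and negates the square roots of the
negative integers.
-/

namespace Vale.Agent.P024.H903

section

variable {E : Type*} [Field E] [CharZero E]

/-- `x` is the square of an element fixed by `τ`. -/
def SqF (τ : E ≃+* E) (x : E) : Prop := ∃ y : E, τ y = y ∧ x = y ^ 2

theorem tau_i (hsq : ∀ x : E, ∃ y : E, y ^ 2 = x) (τ : E ≃+* E) (hτ : ∀ x, τ (τ x) = x)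
    (hτ1 : ∃ x, τ x ≠ x) {i : E} (hi : i ^ 2 = -1) : τ i = -i := by
  have h1 : (τ i) ^ 2 = i ^ 2 := by rw [← map_pow, hi, map_neg, map_one]
  rcases sq_eq_sq_iff_eq_or_eq_neg.mp h1 with h | h
  swap
  · exact h
  exfalso
  obtain ⟨a, ha⟩ := hτ1
  set d := a - τ a with hd
  have hd0 : d ≠ 0 := by
    intro h0
    exact ha (sub_eq_zero.mp h0).symm
  have hdt : τ d = -d := by
    rw [hd, map_sub, hτ]; ring
  obtain ⟨e, he⟩ := hsq d
  have he2 : (τ e) ^ 2 = (i * e) ^ 2 := by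
    rw [← map_pow, he, hdt, mul_pow, hi, he]; ring
  have hee : τ (τ e) = -e := by
    rcases sq_eq_sq_iff_eq_or_eq_neg.mp he2 with h' | h'
    · rw [h', map_mul, h, h', ← mul_assoc, ← pow_two, hi]; ring
    · rw [h', map_neg, map_mul, h, h']
      have : -(i * -(i * e)) = i ^ 2 * e := by ring
      rw [this, hi]; ring
  rw [hτ] at hee
  have he0 : e = 0 := by
    have : (2 : E) * e = 0 := by linear_combination hee
    rcases mul_eq_zero.mp this with h2 | h2
    · exact absurd h2 two_ne_zero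
    · exact h2
  apply hd0
  rw [← he, he0]; ring

theorem SqF.add (hsq : ∀ x : E, ∃ y : E, y ^ 2 = x) (τ : E ≃+* E) (hτ : ∀ x, τ (τ x) = x)
    (hτ1 : ∃ x, τ x ≠ x) {x y : E} (hx : SqF τ x) (hy : SqF τ y) : SqF τ (x + y) := by
  obtain ⟨a, ha, rfl⟩ := hx
  obtain ⟨b, hb, rfl⟩ := hy
  obtain ⟨i, hi⟩ := hsq (-1)
  have hti := tau_i hsq τ hτ hτ1 hi
  obtain ⟨w, hw⟩ := hsq (a + i * b)
  refine ⟨w * τ w, ?_, ?_⟩
  · rw [map_mul, hτ, mul_comm]
  · have h2 : (τ w) ^ 2 = a - i * b := by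
      rw [← map_pow, hw, map_add, map_mul, ha, hb, hti]; ring
    rw [mul_pow, hw, h2]
    linear_combination (b ^ 2) * hi

theorem SqF.add_eq_zero (hsq : ∀ x : E, ∃ y : E, y ^ 2 = x) (τ : E ≃+* E)
    (hτ : ∀ x, τ (τ x) = x) (hτ1 : ∃ x, τ x ≠ x) {x y : E} (hx : SqF τ x) (hy : SqF τ y)
    (h : x + y = 0) : x = 0 := by
  obtain ⟨a, ha, rfl⟩ := hx
  obtain ⟨b, hb, rfl⟩ := hy
  by_cases hb0 : b = 0
  · rw [hb0] at h
    simpa using h
  exfalso
  have h1 : (a / b) ^ 2 = -1 := by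
    rw [div_pow, div_eq_iff (pow_ne_zero 2 hb0)]
    linear_combination h
  have h2 := tau_i hsq τ hτ hτ1 h1
  rw [map_div₀, ha, hb] at h2
  have h3 : a / b = 0 := by
    have : (2 : E) * (a / b) = 0 := by linear_combination h2
    rcases mul_eq_zero.mp this with h2 | h2
    · exact absurd h2 two_ne_zero
    · exact h2
  rw [h3] at h1
  norm_num at h1

omit [CharZero E] in
theorem SqF.one (τ : E ≃+* E) : SqF τ 1 := ⟨1, map_one τ, by ring⟩

omit [CharZero E] in
theorem SqF.zero (τ : E ≃+* E) : SqF τ 0 := ⟨0, map_zero τ, by ring⟩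

omit [CharZero E] in
theorem SqF.pow {τ : E ≃+* E} {x : E} (hx : SqF τ x) (k : ℕ) : SqF τ (x ^ k) := by
  obtain ⟨a, ha, rfl⟩ := hx
  exact ⟨a ^ k, by rw [map_pow, ha], by ring⟩

theorem SqF.sum (hsq : ∀ x : E, ∃ y : E, y ^ 2 = x) (τ : E ≃+* E)
    (hτ : ∀ x, τ (τ x) = x) (hτ1 : ∃ x, τ x ≠ x) {ι : Type*} (s : Finset ι) (f : ι → E)
    (h : ∀ j ∈ s, SqF τ (f j)) : SqF τ (∑ j ∈ s, f j) := by
  classical
  induction s using Finset.induction_on with
  | empty => simpa using SqF.zero τ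
  | insert a s ha ih =>
    rw [Finset.sum_insert ha]
    exact SqF.add hsq τ hτ hτ1 (h a (Finset.mem_insert_self a s))
      (ih fun j hj => h j (Finset.mem_insert_of_mem hj))

theorem SqF.natCast (hsq : ∀ x : E, ∃ y : E, y ^ 2 = x) (τ : E ≃+* E)
    (hτ : ∀ x, τ (τ x) = x) (hτ1 : ∃ x, τ x ≠ x) (m : ℕ) : SqF τ (m : E) := by
  induction m with
  | zero => simpa using SqF.zero τ
  | succ n ih =>
    rw [Nat.cast_succ]
    exact SqF.add hsq τ hτ hτ1 ih (SqF.one τ)

end

/-- **[INV]** of note 19408. -/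
theorem inv_roots {E : Type*} [Field E] [CharZero E] (hsq : ∀ x : E, ∃ y : E, y ^ 2 = x)
    (τ : E ≃+* E) (hτ : ∀ x, τ (τ x) = x) (hτ1 : ∃ x, τ x ≠ x) :
    (∀ n : ℕ, Odd n → ∀ z : E, z ^ n = 1 → τ z = z⁻¹) ∧
      (∀ (m : ℕ) (u : E), 0 < m → u ^ 2 = -(m : E) → τ u = -u) := by
  constructor
  · intro n hn z hz
    have hn0 : n ≠ 0 := by
      rintro rfl
      exact absurd hn (by decide)
    have hz0 : z ≠ 0 := by
      rintro rfl
      rw [zero_pow hn0] at hz
      exact zero_ne_one hz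
    set w := z * τ z with hw
    have hwt : τ w = w := by rw [hw, map_mul, hτ, mul_comm]
    have hwn : w ^ n = 1 := by rw [hw, mul_pow, ← map_pow, hz, map_one, mul_one]
    have hws : SqF τ w := by
      obtain ⟨k, hk⟩ := hn
      refine ⟨w ^ (k + 1), by rw [map_pow, hwt], ?_⟩
      calc w = w ^ n * w := by rw [hwn, one_mul]
        _ = (w ^ (k + 1)) ^ 2 := by rw [← pow_succ, ← pow_mul, hk]; congr 1; ring
    have hw1 : w = 1 := by
      by_contra hne
      have hg : ∑ j ∈ Finset.range n, w ^ j = 0 := by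
        have h1 : (∑ j ∈ Finset.range n, w ^ j) * (w - 1) = 0 := by
          rw [geom_sum_mul, hwn, sub_self]
        rcases mul_eq_zero.mp h1 with h | h
        · exact h
        · exact absurd (sub_eq_zero.mp h) hne
      obtain ⟨k, hk⟩ := Nat.exists_eq_succ_of_ne_zero hn0
      rw [hk, Nat.succ_eq_add_one, Finset.sum_range_succ', pow_zero, add_comm] at hg
      have h0 := SqF.add_eq_zero hsq τ hτ hτ1 (SqF.one τ)
        (SqF.sum hsq τ hτ hτ1 (Finset.range k) (fun j => w ^ (j + 1)) fun j _ => hws.pow _) hg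
      exact one_ne_zero h0
    apply eq_inv_of_mul_eq_one_left
    rw [mul_comm]
    exact hw1
  · intro m u hm hu
    obtain ⟨y, hy, hmy⟩ := SqF.natCast hsq τ hτ hτ1 m
    have hm0 : (m : E) ≠ 0 := by exact_mod_cast hm.ne'
    have hy0 : y ≠ 0 := by
      rintro rfl
      rw [hmy] at hm0
      exact hm0 (by ring)
    have h1 : (u / y) ^ 2 = -1 := by
      rw [div_pow, hu, hmy, neg_div, div_self (pow_ne_zero 2 hy0)]
    have h2 := tau_i hsq τ hτ hτ1 h1
    rw [map_div₀, hy] at h2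
    have h3 : τ u = τ u / y * y := by field_simp
    rw [h3, h2]
    field_simp

end Vale.Agent.P024.H903
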