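import Mathlib

/-!
P024, block [UNIT] (helper644, note 19408): the operator `∏ (1 - c)` over automorphisms `c` which
induce the complex conjugations of the abelian number field `L / F` kills the units of `L` up to
roots of unity.
-/

namespace Vale.Agent.P024.H903

open NumberField

/-- `x ↦ ∏ (1 - c) x` (multiplicatively), `c` running over the list `cs`. -/
def om {F L : Type*} [Field F] [Field L] [Algebra F L] (cs : List (L ≃ₐ[F] L)) (x : L) : L :=
  cs.foldr (fun c y => y / c y) x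

section

variable {F L : Type*} [Field F] [Field L] [Algebra F L]

theorem om_nil (x : L) : om ([] : List (L ≃ₐ[F] L)) x = x := rfl

theorem om_cons (c : L ≃ₐ[F] L) (cs : List (L ≃ₐ[F] L)) (x : L) :
    om (c :: cs) x = om cs x / c (om cs x) := rfl

theorem om_ne_zero (cs : List (L ≃ₐ[F] L)) {x : L} (hx : x ≠ 0) : om cs x ≠ 0 := by
  induction cs with
  | nil => exact hx
  | cons c cs ih =>
    rw [om_cons]
    exact div_ne_zero ih ((map_ne_zero c).mpr ih)

theorem map_om (hab : ∀ a b : L ≃ₐ[F] L, a * b = b * a) (cs : List (L ≃ₐ[F] L))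
    (a : L ≃ₐ[F] L) (x : L) : a (om cs x) = om cs (a x) := by
  induction cs with
  | nil => rfl
  | cons c cs ih =>
    have h : ∀ y : L, a (c y) = c (a y) := fun y => DFunLike.congr_fun (hab a c) y
    rw [om_cons, om_cons, map_div₀, h, ih]

theorem om_div (cs : List (L ≃ₐ[F] L)) (x y : L) : om cs (x / y) = om cs x / om cs y := by
  induction cs with
  | nil => rfl
  | cons c cs ih =>
    rw [om_cons, om_cons, om_cons, ih, map_div₀]
    exact div_div_div_comm _ _ _ _

theorem exists_factor (hab : ∀ a b : L ≃ₐ[F] L, a * b = b * a) (cs : List (L ≃ₐ[F] L))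
    {c : L ≃ₐ[F] L} (hc : c ∈ cs) {x : L} (hx : x ≠ 0) :
    ∃ v : L, v ≠ 0 ∧ om cs x = v / c v := by
  induction cs with
  | nil => exact absurd hc (by simp)
  | cons b cs ih =>
    rcases List.mem_cons.mp hc with rfl | h
    · exact ⟨om cs x, om_ne_zero cs hx, rfl⟩
    · obtain ⟨v, hv0, hv⟩ := ih h
      refine ⟨v / b v, div_ne_zero hv0 ((map_ne_zero b).mpr hv0), ?_⟩
      have h : b (c v) = c (b v) := DFunLike.congr_fun (hab b c) v
      rw [om_cons, hv, map_div₀, map_div₀, h]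
      exact div_div_div_comm _ _ _ _

theorem om_integral [CharZero L] (cs : List (L ≃ₐ[F] L)) {x : L} (hx : IsIntegral ℤ x)
    (hx' : IsIntegral ℤ x⁻¹) : IsIntegral ℤ (om cs x) ∧ IsIntegral ℤ (om cs x)⁻¹ := by
  induction cs with
  | nil => exact ⟨hx, hx'⟩
  | cons c cs ih =>
    rw [om_cons]
    obtain ⟨h1, h2⟩ := ih
    constructor
    · rw [div_eq_mul_inv, ← map_inv₀]
      exact h1.mul (h2.map c.toRingHom.toIntAlgHom)
    · rw [inv_div, div_eq_mul_inv]
      exact (h1.map c.toRingHom.toIntAlgHom).mul h2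

end

/-- **[UNIT]** of note 19408. -/
theorem om_unit {F L : Type*} [Field F] [Field L] [NumberField L] [Algebra F L]
    (hab : ∀ a b : L ≃ₐ[F] L, a * b = b * a) (cs : List (L ≃ₐ[F] L))
    (hcs : ∀ φ : L →+* ℂ, ∃ c ∈ cs, ∀ x, φ (c x) = (starRingEnd ℂ) (φ x)) :
    ∃ W : ℕ, 0 < W ∧ ∀ u : (𝓞 L)ˣ, om cs ((u : 𝓞 L) : L) ^ W = 1 := by
  refine ⟨NumberField.Units.torsionOrder L, NumberField.Units.torsionOrder_pos L, fun u => ?_⟩
  have hu : IsIntegral ℤ ((u : 𝓞 L) : L) := RingOfIntegers.isIntegral_coe _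
  have hu0 : ((u : 𝓞 L) : L) ≠ 0 := by
    simp
  have hui : IsIntegral ℤ ((u : 𝓞 L) : L)⁻¹ := by
    have h : ((u : 𝓞 L) : L)⁻¹ = (((u⁻¹ : (𝓞 L)ˣ) : 𝓞 L) : L) := by
      rw [inv_eq_iff_eq_inv]
      apply eq_inv_of_mul_eq_one_left
      rw [← map_mul, ← Units.val_mul, mul_inv_cancel, Units.val_one, map_one]
    rw [h]
    exact RingOfIntegers.isIntegral_coe _
  obtain ⟨h1, h2⟩ := om_integral cs hu hui
  set v := om cs ((u : 𝓞 L) : L) with hv
  have hv0 : v ≠ 0 := om_ne_zero cs hu0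
  have hnorm : ∀ φ : L →+* ℂ, ‖φ v‖ = 1 := by
    intro φ
    obtain ⟨c, hc, hφ⟩ := hcs φ
    obtain ⟨t, ht0, ht⟩ := exists_factor hab cs hc hu0
    rw [hv, ht, map_div₀, hφ, norm_div, RCLike.norm_conj, div_self]
    exact norm_ne_zero_iff.mpr ((map_ne_zero φ).mpr ht0)
  obtain ⟨n, hn, hvn⟩ := NumberField.Embeddings.pow_eq_one_of_norm_eq_one L ℂ h1 hnorm
  let a : 𝓞 L := ⟨v, h1⟩
  let b : 𝓞 L := ⟨v⁻¹, h2⟩
  have hab' : a * b = 1 := by
    apply RingOfIntegers.ext
    exact mul_inv_cancel₀ hv0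
  have hba' : b * a = 1 := by rw [mul_comm, hab']
  let w : (𝓞 L)ˣ := ⟨a, b, hab', hba'⟩
  have hwn : w ^ n = 1 := by
    apply Units.ext
    apply RingOfIntegers.ext
    rw [Units.val_pow_eq_pow_val, Units.val_one]
    exact hvn
  have hw : w ∈ NumberField.Units.torsion L := by
    rw [NumberField.Units.torsion, CommGroup.mem_torsion, isOfFinOrder_iff_pow_eq_one]
    exact ⟨n, hn, hwn⟩
  rw [← NumberField.Units.rootsOfUnity_eq_torsion, mem_rootsOfUnity] at hw
  have h3 := congrArg (fun x : (𝓞 L)ˣ => ((x : 𝓞 L) : L)) hw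
  simp only [Units.val_pow_eq_pow_val, Units.val_one, map_pow, map_one] at h3
  exact h3

end Vale.Agent.P024.H903
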