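import Vale.Agent.P024.H903.LatU2

/-!
P024, block [IQ-U]: over a number field with one infinite place the units of a Galois extension
contain, with finite index, the Galois module generated by one unit.
-/

namespace Vale.Agent.P024.H903

open NumberField InfinitePlace Module

/-- **[IQ-U]**. -/
theorem iq_unit {F L : Type*} [Field F] [NumberField F] [Field L] [NumberField L] [Algebra F L]
    [IsGalois F L] (hF : Fintype.card (InfinitePlace F) = 1) :
    ∃ (m : ℕ) (ε : (𝓞 L)ˣ), 0 < m ∧
      ∀ u : (𝓞 L)ˣ, ∃ f : (L ≃ₐ[F] L) → ℤ, u ^ m = ∏ g, (uact g ε) ^ f g := by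
  classical
  obtain ⟨w0⟩ : Nonempty (InfinitePlace L) := inferInstance
  obtain ⟨e, hinv, hlog, -⟩ := unit_family2 F w0 (MulAction.stabilizer (L ≃ₐ[F] L) w0)
    (fun _ => Iff.rfl)
  have hsub : Subsingleton (InfinitePlace F) := by
    rw [← Fintype.card_le_one_iff_subsingleton, hF]
  have htrans : ∀ w : InfinitePlace L, ∃ σ : L ≃ₐ[F] L, σ • w0 = w := by
    intro w
    exact exists_smul_eq_of_comap_eq (k := F) (Subsingleton.elim _ _)
  choose γ hγ using htrans
  set v : InfinitePlace L → (𝓞 L)ˣ := fun w => uact (γ w) e with hv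
  have hvl : ∀ w w' : InfinitePlace L, w' ≠ w → Real.log (w' ((v w : 𝓞 L) : L)) < 0 := by
    intro w w' hw
    rw [hv]
    simp only
    rw [log_uact]
    apply hlog
    intro h1
    apply hw
    rw [inv_smul_eq_iff, hγ] at h1
    exact h1
  have hfin := finite_index v hvl
  refine ⟨(Subgroup.closure (Set.range v)).index, e, Nat.pos_of_ne_zero hfin.index_ne_zero, ?_⟩
  have hclos : ∀ x ∈ Subgroup.closure (Set.range v), ∃ f : (L ≃ₐ[F] L) → ℤ,
      x = ∏ g, (uact g e) ^ f g := by
    intro x hx
    induction hx using Subgroup.closure_induction with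
    | mem x hx =>
      obtain ⟨w, rfl⟩ := hx
      refine ⟨fun g => if g = γ w then 1 else 0, ?_⟩
      rw [Finset.prod_eq_single (γ w)]
      · simp only [if_true, zpow_one, hv]
      · intro g _ hg
        simp only [if_neg hg, zpow_zero]
      · intro h; exact absurd (Finset.mem_univ _) h
    | one => exact ⟨fun _ => 0, by simp⟩
    | mul x y _ _ hx hy =>
      obtain ⟨f, hf⟩ := hx
      obtain ⟨g, hg⟩ := hy
      refine ⟨fun s => f s + g s, ?_⟩
      rw [hf, hg, ← Finset.prod_mul_distrib]
      exact Finset.prod_congr rfl fun s _ => (zpow_add _ _ _).symm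
    | inv x _ hx =>
      obtain ⟨f, hf⟩ := hx
      refine ⟨fun s => - f s, ?_⟩
      rw [hf, ← Finset.prod_inv_distrib]
      exact Finset.prod_congr rfl fun s _ => (zpow_neg _ _).symm
  intro u
  exact hclos _ (Subgroup.pow_index_mem _ u)

end Vale.Agent.P024.H903
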