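import Vale.Agent.P024.H903.LatU

/-!
P024, block [LAT-U2]: a Minkowski unit of a Galois extension `K / F` of number fields at one
infinite place of `K`, with all the relations between its conjugates.
-/

namespace Vale.Agent.P024.H903

open NumberField InfinitePlace Module

/-- Maximum principle for a convolution on a finite group. -/
theorem conv_const {G : Type*} [Group G] [Fintype G] (D : Subgroup G) (ℓ : G → ℝ)
    (hneg : ∀ g, g ∉ D → ℓ g < 0) (hsum : 0 ≤ ∑ g, ℓ g) (S : G → ℝ)
    (hS : ∀ s, ∀ t ∈ D, S (s * t) = S s) (h0 : ∀ r, ∑ s, S s * ℓ (s⁻¹ * r) = 0) :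
    ∀ s s', S s = S s' := by
  have hshift : ∀ r : G, ∑ s, ℓ (s⁻¹ * r) = ∑ g, ℓ g := by
    intro r
    exact Fintype.sum_bijective (fun s : G => s⁻¹ * r)
      ⟨fun a b h => inv_injective (mul_right_cancel h), fun b => ⟨r * b⁻¹, by group⟩⟩ _ _
      fun _ => rfl
  have hmem : ∀ s r : G, s⁻¹ * r ∈ D → S r = S s := by
    intro s r h
    have := hS s _ h
    rwa [mul_inv_cancel_left] at this
  have key : ∀ (T : G → ℝ) (hT : ∀ s, ∀ t ∈ D, T (s * t) = T s)
      (hT0 : ∀ r, ∑ s, T s * ℓ (s⁻¹ * r) = 0) (r : G) (hr : ∀ s, T s ≤ T r) (hr0 : 0 ≤ T r),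
      ∀ s, T s = T r := by
    intro T hT hT0 r hr hr0 s
    have h1 : ∑ s, (T s - T r) * ℓ (s⁻¹ * r) = - (T r * ∑ g, ℓ g) := by
      simp only [sub_mul]
      rw [Finset.sum_sub_distrib, hT0, ← Finset.mul_sum, hshift, zero_sub]
    have hnn : ∀ s ∈ (Finset.univ : Finset G), 0 ≤ (T s - T r) * ℓ (s⁻¹ * r) := by
      intro s _
      by_cases h2 : s⁻¹ * r ∈ D
      · have h3 := hT s _ h2
        rw [mul_inv_cancel_left] at h3
        rw [h3, sub_self, zero_mul]
      · exact mul_nonneg_of_nonpos_of_nonpos (by linarith [hr s]) (hneg _ h2).le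
    have h4 : ∑ s, (T s - T r) * ℓ (s⁻¹ * r) = 0 := by
      apply le_antisymm
      · rw [h1]
        have := mul_nonneg hr0 hsum
        linarith
      · exact Finset.sum_nonneg hnn
    have h5 := (Finset.sum_eq_zero_iff_of_nonneg hnn).mp h4 s (Finset.mem_univ s)
    by_cases h2 : s⁻¹ * r ∈ D
    · have h3 := hT s _ h2
      rw [mul_inv_cancel_left] at h3
      exact h3.symm
    · rcases mul_eq_zero.mp h5 with h6 | h6
      · linarith
      · exact absurd h6 (hneg _ h2).ne
  have hne : (Finset.univ : Finset G).Nonempty := ⟨1, Finset.mem_univ 1⟩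
  obtain ⟨r, -, hr⟩ := Finset.exists_max_image Finset.univ S hne
  obtain ⟨r', -, hr'⟩ := Finset.exists_min_image Finset.univ S hne
  rcases le_or_gt 0 (S r) with h1 | h1
  · have h2 := key S hS h0 r (fun s => hr s (Finset.mem_univ s)) h1
    intro s s'
    rw [h2 s, h2 s']
  · have h2 := key (fun s => - S s) (fun s t ht => by rw [hS s t ht])
      (fun r => by simp only [neg_mul, Finset.sum_neg_distrib, h0, neg_zero]) r'
      (fun s => by have := hr' s (Finset.mem_univ s); linarith)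
      (by have := hr r' (Finset.mem_univ r'); linarith)
    intro s s'
    have h3 := h2 s
    have h4 := h2 s'
    simp only [neg_inj] at h3 h4
    rw [h3, h4]

/-- The absolute values of a product of conjugates of a unit. -/
theorem log_prod_conj {F K : Type*} [Field F] [NumberField F] [Field K] [NumberField K]
    [Algebra F K] {ι : Type*} (s : Finset ι) (x : ι → (𝓞 K)ˣ) (a : ι → ℤ) (w : InfinitePlace K) :
    Real.log (w (((∏ i ∈ s, x i ^ a i : (𝓞 K)ˣ) : 𝓞 K) : K)) =
      ∑ i ∈ s, (a i : ℝ) * Real.log (w ((x i : 𝓞 K) : K)) := by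
  classical
  induction s using Finset.induction_on with
  | empty => simp
  | insert i s hi ih =>
    rw [Finset.prod_insert hi, Finset.sum_insert hi, c_mul, map_mul, Real.log_mul, ih, c_zpow,
      map_zpow₀, Real.log_zpow]
    · exact (Units.pos_at_place _ w).ne'
    · exact (Units.pos_at_place _ w).ne'

section

variable {F K : Type*} [Field F] [NumberField F] [Field K] [NumberField K] [Algebra F K]

omit [NumberField F] [NumberField K] in
theorem mult_smul' (g : K ≃ₐ[F] K) (w : InfinitePlace K) : (g • w).mult = w.mult := by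
  unfold InfinitePlace.mult
  by_cases h : IsReal w
  · rw [if_pos h, if_pos (isReal_smul_iff.mpr h)]
  · rw [if_neg h, if_neg (fun h2 => h (isReal_smul_iff.mp h2))]

/-- The sum of the logarithms of a unit over the orbit of `w0`, if the unit is small at all the
other places. -/
theorem orbit_sum_nonneg (w0 : InfinitePlace K) (e : (𝓞 K)ˣ)
    (he : ∀ w : InfinitePlace K, w ≠ w0 → Real.log (w ((e : 𝓞 K) : K)) < 0) :
    0 ≤ ∑ g : K ≃ₐ[F] K, Real.log ((g • w0) ((e : 𝓞 K) : K)) := by
  classical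
  set f : InfinitePlace K → ℝ := fun w => Real.log (w ((e : 𝓞 K) : K)) with hf
  -- the number of `g` with `g • w0 = w`
  set N : InfinitePlace K → ℕ := fun w =>
    (Finset.univ.filter fun g : K ≃ₐ[F] K => g • w0 = w).card with hN
  have h1 : ∑ g : K ≃ₐ[F] K, f (g • w0) = ∑ w, (N w : ℝ) * f w := by
    rw [← Finset.sum_fiberwise_of_maps_to (s := Finset.univ) (t := Finset.univ)
      (g := fun g : K ≃ₐ[F] K => g • w0) (fun _ _ => Finset.mem_univ _)]
    refine Finset.sum_congr rfl fun w _ => ?_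
    rw [Finset.sum_congr rfl (g := fun _ => f w)]
    · rw [Finset.sum_const, nsmul_eq_mul]
    · intro g hg
      rw [(Finset.mem_filter.mp hg).2]
  have hNorb : ∀ g : K ≃ₐ[F] K, N (g • w0) = N w0 := by
    intro g
    apply Finset.card_bij (fun x _ => g⁻¹ * x)
    · intro x hx
      rw [Finset.mem_filter] at hx ⊢
      exact ⟨Finset.mem_univ _, by rw [mul_smul, hx.2, inv_smul_smul]⟩
    · intro a _ b _ hab
      exact mul_left_cancel hab
    · intro b hb
      rw [Finset.mem_filter] at hb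
      refine ⟨g * b, ?_, by rw [inv_mul_cancel_left]⟩
      rw [Finset.mem_filter]
      exact ⟨Finset.mem_univ _, by rw [mul_smul, hb.2]⟩
  have hmul : ∑ w : InfinitePlace K, (w.mult : ℝ) * f w = 0 := Units.sum_mult_mul_log e
  -- comparison
  have h2 : ∀ w : InfinitePlace K, (N w0 : ℝ) * ((w.mult : ℝ) * f w) ≤
      (w0.mult : ℝ) * ((N w : ℝ) * f w) := by
    intro w
    by_cases hw : ∃ g : K ≃ₐ[F] K, g • w0 = w
    · obtain ⟨g, rfl⟩ := hw
      rw [hNorb, mult_smul']
      apply le_of_eq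
      ring
    · have h3 : N w = 0 := by
        rw [hN]
        simp only [Finset.card_eq_zero, Finset.filter_eq_empty_iff, Finset.mem_univ,
          forall_true_left]
        intro g hg
        exact hw ⟨g, hg⟩
      have h4 : w ≠ w0 := by
        rintro rfl
        exact hw ⟨1, one_smul _ _⟩
      rw [h3, Nat.cast_zero, zero_mul, mul_zero]
      exact mul_nonpos_of_nonneg_of_nonpos (Nat.cast_nonneg _)
        (mul_nonpos_of_nonneg_of_nonpos (Nat.cast_nonneg _) (he w h4).le)
  have h5 : 0 ≤ (w0.mult : ℝ) * ∑ w, (N w : ℝ) * f w := by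
    have := Finset.sum_le_sum fun w (_ : w ∈ (Finset.univ : Finset (InfinitePlace K))) => h2 w
    rw [← Finset.mul_sum, ← Finset.mul_sum, hmul, mul_zero] at this
    exact this
  rw [h1]
  have h6 : (0 : ℝ) < w0.mult := by exact_mod_cast mult_pos
  exact nonneg_of_mul_nonneg_right h5 h6

variable (F) in
/-- **[LAT-U2]**. -/
theorem unit_family2 (w0 : InfinitePlace K) (D : Subgroup (K ≃ₐ[F] K)) [Fintype D]
    (hD : ∀ g, g ∈ D ↔ g • w0 = w0) :
    ∃ e : (𝓞 K)ˣ, (∀ s : K ≃ₐ[F] K, s • w0 = w0 → uact s e = e) ∧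
      (∀ w : InfinitePlace K, w ≠ w0 → Real.log (w ((e : 𝓞 K) : K)) < 0) ∧
      ∀ A : (K ≃ₐ[F] K) → ℤ, (∏ s, uact s e ^ A s) ∈ Units.torsion K →
        ∀ s s', ∑ t : D, A (s * t) = ∑ t : D, A (s' * t) := by
  classical
  obtain ⟨e', he'⟩ := Units.dirichletUnitTheorem.exists_unit K w0
  set e : (𝓞 K)ˣ := ∏ t : D, uact (t : K ≃ₐ[F] K) e' with he
  have hinv : ∀ s : K ≃ₐ[F] K, s • w0 = w0 → uact s e = e := by
    intro s hs
    rw [he, map_prod]
    refine Fintype.prod_bijective (fun t : D => (⟨s, (hD s).mpr hs⟩ : D) * t)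
      (Group.mulLeft_bijective _) _ _ fun t => ?_
    rw [← uact_mul]
    rfl
  have hlog : ∀ w : InfinitePlace K, w ≠ w0 → Real.log (w ((e : 𝓞 K) : K)) < 0 := by
    intro w hw
    have h1 := log_prod_conj (F := F) Finset.univ (fun t : D => uact (t : K ≃ₐ[F] K) e')
      (fun _ => 1) w
    simp only [zpow_one, Int.cast_one, one_mul] at h1
    rw [he, h1]
    apply Finset.sum_neg
    · intro t _
      rw [log_uact]
      apply he'
      intro h3
      apply hw
      rw [inv_smul_eq_iff] at h3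
      rw [h3]
      exact (hD _).mp t.2
    · exact ⟨1, Finset.mem_univ _⟩
  refine ⟨e, hinv, hlog, ?_⟩
  intro A hA
  set ℓ : (K ≃ₐ[F] K) → ℝ := fun g => Real.log ((g • w0) ((e : 𝓞 K) : K)) with hℓ
  have hℓneg : ∀ g, g ∉ D → ℓ g < 0 := fun g hg => hlog _ fun h => hg ((hD g).mpr h)
  have hℓleft : ∀ (t : K ≃ₐ[F] K), t ∈ D → ∀ g, ℓ (t * g) = ℓ g := by
    intro t ht g
    have h1 : (t * g) • w0 = t • (g • w0) := mul_smul _ _ _
    have h2 : t⁻¹ • w0 = w0 := by rw [inv_smul_eq_iff]; exact ((hD t).mp ht).symm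
    have h3 := log_uact (F := F) t⁻¹ (g • w0) e
    rw [hinv _ h2, inv_inv] at h3
    rw [hℓ]
    simp only
    rw [h1, h3]
  have hrel : ∀ r : K ≃ₐ[F] K, ∑ s, (A s : ℝ) * ℓ (s⁻¹ * r) = 0 := by
    intro r
    have h1 := log_prod_conj (F := F) Finset.univ (fun s : K ≃ₐ[F] K => uact s e) A (r • w0)
    rw [(Units.mem_torsion K).mp hA, Real.log_one] at h1
    rw [h1]
    refine Finset.sum_congr rfl fun s _ => ?_
    rw [log_uact, hℓ]
    simp only
    rw [mul_smul]
  set S : (K ≃ₐ[F] K) → ℝ := fun s => ∑ t : D, (A (s * t) : ℝ) with hS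
  have hSD : ∀ s, ∀ t ∈ D, S (s * t) = S s := by
    intro s t ht
    rw [hS]
    simp only
    refine Fintype.sum_bijective (fun x : D => (⟨t, ht⟩ : D) * x)
      (Group.mulLeft_bijective _) _ _ fun x => ?_
    rw [mul_assoc]
    rfl
  have hSrel : ∀ r, ∑ s, S s * ℓ (s⁻¹ * r) = 0 := by
    intro r
    rw [hS]
    simp only [Finset.sum_mul]
    rw [Finset.sum_comm]
    apply Finset.sum_eq_zero
    intro t _
    rw [← hrel r]
    refine Fintype.sum_bijective (fun s : K ≃ₐ[F] K => s * t)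
      (Group.mulRight_bijective _) _ _ fun s => ?_
    have h1 : (s * (t : K ≃ₐ[F] K))⁻¹ * r = (t : K ≃ₐ[F] K)⁻¹ * (s⁻¹ * r) := by
      rw [mul_inv_rev, mul_assoc]
    rw [h1, hℓleft _ (inv_mem t.2)]
  have hfin := conv_const D ℓ hℓneg (orbit_sum_nonneg w0 e hlog) S hSD hSrel
  intro s s'
  have h1 := hfin s s'
  rw [hS] at h1
  simp only at h1
  exact_mod_cast h1

end

end Vale.Agent.P024.H903
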