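import Vale.Agent.P024.H903.Mink
import Vale.Agent.P024.H157.Her1

/-!
P024, (M3), block (U): units outside the primes above a totally split prime.
-/

namespace Vale.Agent.P024.H903

open NumberField InfinitePlace Module IsDedekindDomain

section Gen

variable {R S : Type*} [CommRing R] [IsDedekindDomain R] [CommRing S] [IsDedekindDomain S]

theorem intVal_equiv (e : R ≃+* S) (w : HeightOneSpectrum R) (x : R) :
    (HeightOneSpectrum.equivOfRingEquiv e w).intValuation (e x) = w.intValuation x := by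
  by_cases hx : x = 0
  · rw [hx, map_zero, map_zero, map_zero]
  have hex : e x ≠ 0 := by rwa [ne_eq, map_eq_zero_iff e e.injective]
  have hmem : ∀ n : ℕ, e x ∈ (HeightOneSpectrum.equivOfRingEquiv e w).asIdeal ^ n ↔
      x ∈ w.asIdeal ^ n := by
    intro n
    have h1 : (HeightOneSpectrum.equivOfRingEquiv e w).asIdeal = w.asIdeal.map e := by
      rw [← Ideal.comap_symm]; rfl
    rw [h1, ← Ideal.map_pow, Ideal.mem_map_of_equiv]
    constructor
    · rintro ⟨z, hz, hzx⟩
      rwa [← e.injective hzx]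
    · intro h
      exact ⟨x, h, rfl⟩
  have hle : ∀ n : ℕ, (HeightOneSpectrum.equivOfRingEquiv e w).intValuation (e x) ≤
      WithZero.exp (-(n : ℤ)) ↔ w.intValuation x ≤ WithZero.exp (-(n : ℤ)) := by
    intro n
    rw [HeightOneSpectrum.intValuation_le_pow_iff_mem, hmem,
      ← HeightOneSpectrum.intValuation_le_pow_iff_mem]
  apply le_antisymm
  · rw [HeightOneSpectrum.intValuation_eq_exp_neg_multiplicity w hx]
    rw [hle, HeightOneSpectrum.intValuation_eq_exp_neg_multiplicity w hx]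
  · rw [HeightOneSpectrum.intValuation_eq_exp_neg_multiplicity _ hex]
    rw [← hle, HeightOneSpectrum.intValuation_eq_exp_neg_multiplicity _ hex]

/-- A nonzero element whose only prime is `y`. -/
theorem exists_gen (R : Type*) [CommRing R] [IsDedekindDomain R] [Finite (ClassGroup R)]
    (y : HeightOneSpectrum R) :
    ∃ (h : ℕ) (π : R), 0 < h ∧ π ≠ 0 ∧ y.intValuation π = WithZero.exp (-(h : ℤ)) ∧
      ∀ w : HeightOneSpectrum R, w ≠ y → w.intValuation π = 1 := by
  classical
  have := Fintype.ofFinite (ClassGroup R)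
  set h := Fintype.card (ClassGroup R) with hh
  have hh0 : 0 < h := Fintype.card_pos
  have hy0 : y.asIdeal ∈ nonZeroDivisors (Ideal R) := mem_nonZeroDivisors_of_ne_zero y.ne_bot
  have h1 : ClassGroup.mk0 (⟨y.asIdeal, hy0⟩ ^ h) = 1 := by
    rw [map_pow, hh, pow_card_eq_one]
  rw [ClassGroup.mk0_eq_one_iff] at h1
  obtain ⟨π, hπ⟩ := h1.principal
  have hπ' : y.asIdeal ^ h = Ideal.span {π} := hπ
  have hπ0 : π ≠ 0 := by
    rintro rfl
    rw [Ideal.span_singleton_eq_bot.mpr rfl] at hπ'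
    exact y.ne_bot (pow_eq_zero_iff hh0.ne' |>.mp hπ')
  refine ⟨h, π, hh0, hπ0, ?_, ?_⟩
  · rw [HeightOneSpectrum.intValuation_eq_exp_neg_multiplicity y hπ0, ← hπ',
      multiplicity_pow_self y.ne_bot y.irreducible.not_isUnit]
  · intro w hw
    rw [HeightOneSpectrum.intValuation_eq_exp_neg_multiplicity w hπ0, ← hπ']
    have h2 : ¬ w.asIdeal ∣ y.asIdeal ^ h := by
      intro hd
      have h3 := w.prime.dvd_of_dvd_pow hd
      apply hw
      apply HeightOneSpectrum.ext
      rw [Ideal.dvd_iff_le] at h3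
      exact ((y.isMaximal.eq_of_le w.isPrime.ne_top h3)).symm
    rw [multiplicity_eq_zero.mpr h2]
    simp

end Gen

section

variable {F L : Type*} [Field F] [Field L] [NumberField L] [Algebra F L]

/-- The action of an automorphism on the primes. -/
noncomputable def gp (g : L ≃ₐ[F] L) (w : HeightOneSpectrum (𝓞 L)) : HeightOneSpectrum (𝓞 L) :=
  HeightOneSpectrum.equivOfRingEquiv (RingOfIntegers.mapRingEquiv (g : L ≃+* L)) w

omit [NumberField L] in
theorem mem_gp (g : L ≃ₐ[F] L) (w : HeightOneSpectrum (𝓞 L)) (x : 𝓞 L) :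
    x ∈ (gp g w).asIdeal ↔ RingOfIntegers.mapRingEquiv ((g⁻¹ : L ≃ₐ[F] L) : L ≃+* L) x ∈
      w.asIdeal := Iff.rfl

omit [NumberField L] in
theorem gp_mul (g h : L ≃ₐ[F] L) (w : HeightOneSpectrum (𝓞 L)) :
    gp (g * h) w = gp g (gp h w) := by
  apply HeightOneSpectrum.ext
  ext x
  rw [mem_gp, mem_gp, mem_gp]
  rfl

omit [NumberField L] in
theorem gp_one (w : HeightOneSpectrum (𝓞 L)) : gp (1 : L ≃ₐ[F] L) w = w := by
  apply HeightOneSpectrum.ext
  ext x
  rw [mem_gp]
  rfl

theorem val_gp (g : L ≃ₐ[F] L) (w : HeightOneSpectrum (𝓞 L)) (x : L) :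
    (gp g w).valuation L (g x) = w.valuation L x := by
  obtain ⟨a, b, hb, rfl⟩ := IsFractionRing.div_surjective (A := 𝓞 L) x
  have h : ∀ c : 𝓞 L, (gp g w).valuation L (g (algebraMap (𝓞 L) L c)) =
      w.valuation L (algebraMap (𝓞 L) L c) := by
    intro c
    have h1 : g (algebraMap (𝓞 L) L c) =
        algebraMap (𝓞 L) L (RingOfIntegers.mapRingEquiv (g : L ≃+* L) c) := rfl
    rw [h1, HeightOneSpectrum.valuation_of_algebraMap, HeightOneSpectrum.valuation_of_algebraMap]
    exact intVal_equiv _ w c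
  rw [map_div₀, map_div₀, map_div₀, h, h]

/-- The exponent of `x` at `w`, as a homomorphism. -/
noncomputable def vh (w : HeightOneSpectrum (𝓞 L)) : Lˣ →* Multiplicative ℤ where
  toFun x := Multiplicative.ofAdd (WithZero.log (w.valuation L (x : L)))
  map_one' := by simp
  map_mul' x y := by
    rw [Units.val_mul, map_mul, WithZero.log_mul, ofAdd_add]
    · exact (Valuation.ne_zero_iff _).mpr x.ne_zero
    · exact (Valuation.ne_zero_iff _).mpr y.ne_zero

theorem vh_eq_one (w : HeightOneSpectrum (𝓞 L)) (x : Lˣ) :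
    vh w x = 1 ↔ w.valuation L (x : L) = 1 := by
  have hx : w.valuation L (x : L) ≠ 0 := (Valuation.ne_zero_iff _).mpr x.ne_zero
  constructor
  · intro h
    have h1 : WithZero.log (w.valuation L (x : L)) = 0 := h
    rw [← WithZero.exp_log hx, h1, WithZero.exp_zero]
  · intro h
    show Multiplicative.ofAdd (WithZero.log (w.valuation L (x : L))) = 1
    rw [h, WithZero.log_one, ofAdd_zero]

/-- The inclusion of the units. -/
noncomputable def ui (L : Type*) [Field L] : (𝓞 L)ˣ →* Lˣ :=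
  Units.map (algebraMap (𝓞 L) L).toMonoidHom

omit [NumberField L] in
theorem ui_injective : Function.Injective (ui L) := by
  intro x y h
  apply Units.ext
  apply RingOfIntegers.ext
  exact congrArg (fun z : Lˣ => (z : L)) h

theorem val_ui (w : HeightOneSpectrum (𝓞 L)) (x : (𝓞 L)ˣ) :
    w.valuation L ((ui L x : Lˣ) : L) = 1 := by
  have h1 : ((ui L x : Lˣ) : L) = algebraMap (𝓞 L) L (x : 𝓞 L) := rfl
  apply le_antisymm
  · rw [h1]; exact w.valuation_le_one _
  · have h2 : ((ui L x⁻¹ : Lˣ) : L) = algebraMap (𝓞 L) L ((x⁻¹ : (𝓞 L)ˣ) : 𝓞 L) := rfl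
    have h3 : w.valuation L ((ui L x⁻¹ : Lˣ) : L) ≤ 1 := by
      rw [h2]; exact w.valuation_le_one _
    rw [map_inv, Units.val_inv_eq_inv_val, map_inv₀] at h3
    exact (inv_le_one₀ (zero_lt_iff.mpr ((Valuation.ne_zero_iff _).mpr (Units.ne_zero _)))).mp h3

theorem exists_ui (x : Lˣ) (h : ∀ w : HeightOneSpectrum (𝓞 L), w.valuation L (x : L) = 1) :
    ∃ u : (𝓞 L)ˣ, ui L u = x := by
  obtain ⟨a, ha⟩ := HeightOneSpectrum.mem_integers_of_valuation_le_one (R := 𝓞 L) L (x : L)
    fun w => (h w).le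
  obtain ⟨b, hb⟩ := HeightOneSpectrum.mem_integers_of_valuation_le_one (R := 𝓞 L) L
    ((x⁻¹ : Lˣ) : L) fun w => by
      rw [Units.val_inv_eq_inv_val, map_inv₀, h w, inv_one]
  have hab : a * b = 1 := by
    apply RingOfIntegers.ext
    have : algebraMap (𝓞 L) L (a * b) = 1 := by
      rw [map_mul, ha, hb, Units.mul_inv]
    exact this
  refine ⟨⟨a, b, hab, by rw [mul_comm, hab]⟩, ?_⟩
  apply Units.ext
  exact ha

/-- **Units outside a totally split prime** (`y` a prime of `L` with trivial decomposition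
group): a permutation module of finite index modulo one relation. -/
theorem vmink [NumberField F] [IsGalois F L] (hodd : Odd (Module.finrank F L))
    (y : HeightOneSpectrum (𝓞 L)) (hy : ∀ g : L ≃ₐ[F] L, gp g y = y → g = 1) (U : Subgroup Lˣ)
    (hU : ∀ x : Lˣ, x ∈ U ↔ ∀ w : HeightOneSpectrum (𝓞 L),
      (∀ g : L ≃ₐ[F] L, w ≠ gp g y) → w.valuation L (x : L) = 1) :
    ∃ u : InfinitePlace L ⊕ (L ≃ₐ[F] L) → Lˣ, (∀ x, u x ∈ U) ∧
      (∀ (g : L ≃ₐ[F] L) x, u (g • x) = Units.mapEquiv (g : L ≃* L) (u x)) ∧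
      (Subgroup.closure (Set.range u)).relIndex U ≠ 0 ∧
      ∃ e : InfinitePlace L ⊕ (L ≃ₐ[F] L) → ℤ, e ≠ 0 ∧ (∀ (g : L ≃ₐ[F] L) x, e (g • x) = e x) ∧
        ∀ a : InfinitePlace L ⊕ (L ≃ₐ[F] L) → ℤ, ∏ x, u x ^ a x = 1 ↔ ∃ k : ℤ, a = k • e := by
  classical
  obtain ⟨-, u₀, hu₀g, hu₀f, e₀, he₀p, he₀g, hrel⟩ := mink (F := F) (L := L) hodd
  obtain ⟨h, π₀, hh, hπ₀, hπy, hπw⟩ := exists_gen (𝓞 L) y
  have hπ₀' : algebraMap (𝓞 L) L π₀ ≠ 0 := by
    rw [ne_eq, FaithfulSMul.algebraMap_eq_zero_iff]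
    exact hπ₀
  let π : Lˣ := Units.mk0 (algebraMap (𝓞 L) L π₀) hπ₀'
  have hπval : ∀ w : HeightOneSpectrum (𝓞 L), w.valuation L (π : L) =
      if w = y then WithZero.exp (-(h : ℤ)) else 1 := by
    intro w
    have h1 : (π : L) = algebraMap (𝓞 L) L π₀ := rfl
    rw [h1, HeightOneSpectrum.valuation_of_algebraMap]
    split_ifs with hw
    · rw [hw, hπy]
    · exact hπw w hw
  have hgπ : ∀ (g : L ≃ₐ[F] L) (w : HeightOneSpectrum (𝓞 L)), w.valuation L (g (π : L)) =
      if w = gp g y then WithZero.exp (-(h : ℤ)) else 1 := by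
    intro g w
    have h1 : gp g (gp g⁻¹ w) = w := by rw [← gp_mul, mul_inv_cancel, gp_one]
    have h2 := val_gp g (gp g⁻¹ w) (π : L)
    rw [h1, hπval] at h2
    rw [h2]
    have h3 : gp g⁻¹ w = y ↔ w = gp g y := by
      constructor
      · intro h; rw [← h1, h]
      · intro h; rw [h, ← gp_mul, inv_mul_cancel, gp_one]
    simp only [h3]
  have hinj : ∀ g g' : L ≃ₐ[F] L, gp g y = gp g' y → g = g' := by
    intro g g' hgg
    have h1 : gp (g'⁻¹ * g) y = y := by
      rw [gp_mul, hgg, ← gp_mul, inv_mul_cancel, gp_one]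
    have h2 := hy _ h1
    rw [inv_mul_eq_one] at h2
    exact h2.symm
  let u : InfinitePlace L ⊕ (L ≃ₐ[F] L) → Lˣ :=
    Sum.elim (fun w => ui L (u₀ w)) fun g => Units.mapEquiv (g : L ≃* L) π
  have hul : ∀ w, u (Sum.inl w) = ui L (u₀ w) := fun w => rfl
  have hur : ∀ g, u (Sum.inr g) = Units.mapEquiv (g : L ≃* L) π := fun g => rfl
  have huU : ∀ x, u x ∈ U := by
    rintro (w | g)
    · rw [hul, hU]
      intro w' _
      exact val_ui w' _
    · rw [hur, hU]
      intro w' hw'
      have h1 : ((Units.mapEquiv (g : L ≃* L) π : Lˣ) : L) = g (π : L) := rfl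
      rw [h1, hgπ, if_neg (hw' g)]
  have hvl : ∀ (w' : HeightOneSpectrum (𝓞 L)) (w : InfinitePlace L),
      vh w' (u (Sum.inl w)) = 1 := fun w' w => (vh_eq_one w' _).mpr (val_ui w' _)
  have hvr : ∀ g g' : L ≃ₐ[F] L, vh (gp g y) (u (Sum.inr g')) =
      if g' = g then Multiplicative.ofAdd (-(h : ℤ)) else 1 := by
    intro g g'
    show Multiplicative.ofAdd (WithZero.log ((gp g y).valuation L (g' (π : L)))) = _
    rw [hgπ]
    by_cases hgg : g' = g
    · rw [if_pos (by rw [hgg]), if_pos hgg, WithZero.log_exp]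
    · rw [if_neg (fun hc => hgg (hinj _ _ hc).symm), if_neg hgg, WithZero.log_one, ofAdd_zero]
  have hvp : ∀ (g : L ≃ₐ[F] L) (c : (L ≃ₐ[F] L) → ℤ),
      vh (gp g y) (∏ g', u (Sum.inr g') ^ c g') = Multiplicative.ofAdd (-(h : ℤ) * c g) := by
    intro g c
    rw [map_prod, Finset.prod_eq_single g]
    · rw [map_zpow, hvr, if_pos rfl, ← ofAdd_zsmul, smul_eq_mul, mul_comm]
    · intro g' _ hg'
      rw [map_zpow, hvr, if_neg hg', one_zpow]
    · intro hg
      exact absurd (Finset.mem_univ g) hg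
  have hul' : ∀ a : InfinitePlace L → ℤ, ∏ w, u (Sum.inl w) ^ a w = ui L (∏ w, u₀ w ^ a w) := by
    intro a
    rw [map_prod]
    exact Finset.prod_congr rfl fun w _ => by rw [map_zpow, hul]
  have hIU : Subgroup.closure (Set.range u) ≤ U := by
    rw [Subgroup.closure_le]
    rintro _ ⟨x, rfl⟩
    exact huU x
  refine ⟨u, huU, ?_, ?_, Sum.elim e₀ fun _ => 0, ?_, ?_, ?_⟩
  · rintro g (w | g')
    · apply Units.ext
      exact hu₀g g w
    · apply Units.ext
      rfl
  · let f : Lˣ →* ((L ≃ₐ[F] L) → Multiplicative ℤ) := MonoidHom.pi fun g => vh (gp g y)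
    have hf : ∀ x g, f x g = vh (gp g y) x := fun x g => rfl
    rw [H157.relIndex_eq_map_mul_ker f hIU]
    apply mul_ne_zero
    · have : NeZero h := ⟨hh.ne'⟩
      let q : ((L ≃ₐ[F] L) → Multiplicative ℤ) →* ((L ≃ₐ[F] L) → Multiplicative (ZMod h)) :=
        MonoidHom.pi fun g => (AddMonoidHom.toMultiplicative (Int.castAddHom (ZMod h))).comp
          (Pi.evalMonoidHom _ g)
      have hq : q.ker ≤ (Subgroup.closure (Set.range u)).map f := by
        intro m hm
        have h1 : ∀ g, ∃ c : ℤ, Multiplicative.toAdd (m g) = h * c := by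
          intro g
          have h2 := congrFun (MonoidHom.mem_ker.mp hm) g
          have h3 : ((Multiplicative.toAdd (m g) : ℤ) : ZMod h) = 0 := h2
          exact (ZMod.intCast_zmod_eq_zero_iff_dvd _ _).mp h3
        choose c hc using h1
        refine ⟨∏ g', u (Sum.inr g') ^ (-c g'), ?_, ?_⟩
        · exact Subgroup.prod_mem _ fun g _ =>
            Subgroup.zpow_mem _ (Subgroup.subset_closure (Set.mem_range_self _)) _
        · funext g
          rw [hf, hvp g fun g => -c g]
          apply Multiplicative.toAdd.injective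
          rw [hc, toAdd_ofAdd]
          ring
      have hqi : q.ker.index ≠ 0 := by
        have : q.ker.FiniteIndex := Subgroup.finiteIndex_ker q
        exact Subgroup.FiniteIndex.index_ne_zero
      have h1 : ((Subgroup.closure (Set.range u)).map f).index ≠ 0 := by
        intro h0
        have := Subgroup.index_dvd_of_le hq
        rw [h0, zero_dvd_iff] at this
        exact hqi this
      intro h0
      have := Subgroup.relIndex_dvd_index_of_normal ((Subgroup.closure (Set.range u)).map f)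
        (U.map f)
      rw [h0, zero_dvd_iff] at this
      exact h1 this
    · have hUf : U ⊓ f.ker = (⊤ : Subgroup (𝓞 L)ˣ).map (ui L) := by
        apply le_antisymm
        · rintro x ⟨hx1, hx2⟩
          have h1 : ∀ w : HeightOneSpectrum (𝓞 L), w.valuation L (x : L) = 1 := by
            intro w
            by_cases hw : ∃ g : L ≃ₐ[F] L, w = gp g y
            · obtain ⟨g, rfl⟩ := hw
              exact (vh_eq_one _ _).mp (congrFun (MonoidHom.mem_ker.mp hx2) g)
            · push Not at hw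
              exact (hU x).mp hx1 w hw
          obtain ⟨v, hv⟩ := exists_ui x h1
          exact ⟨v, trivial, hv⟩
        · rintro _ ⟨v, -, rfl⟩
          exact ⟨(hU _).mpr fun w _ => val_ui w v,
            MonoidHom.mem_ker.mpr (funext fun g => (vh_eq_one _ _).mpr (val_ui _ v))⟩
      have hIf : (Subgroup.closure (Set.range u₀)).map (ui L) ≤
          Subgroup.closure (Set.range u) ⊓ f.ker := by
        rw [Subgroup.map_le_iff_le_comap, Subgroup.closure_le]
        rintro _ ⟨w, rfl⟩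
        exact ⟨Subgroup.subset_closure ⟨Sum.inl w, rfl⟩,
          MonoidHom.mem_ker.mpr (funext fun g => (vh_eq_one _ _).mpr (val_ui _ _))⟩
      intro h0
      have h1 := Subgroup.relIndex_dvd_of_le_left (U ⊓ f.ker) hIf
      rw [h0, zero_dvd_iff, hUf, Subgroup.relIndex_map_map, top_sup_eq,
        Subgroup.relIndex_top_right, (MonoidHom.ker_eq_bot_iff _).mpr ui_injective,
        sup_bot_eq] at h1
      exact Subgroup.FiniteIndex.index_ne_zero h1
  · intro h0
    obtain ⟨w₀⟩ : Nonempty (InfinitePlace L) := inferInstance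
    have := congrFun h0 (Sum.inl w₀)
    have h1 := he₀p w₀
    simp only [Sum.elim_inl, Pi.zero_apply] at this
    omega
  · rintro g (w | g')
    · exact he₀g g w
    · rfl
  · intro a
    rw [Fintype.prod_sum_type]
    constructor
    · intro h1
      have h2 : ∀ g, a (Sum.inr g) = 0 := by
        intro g
        have h3 := congrArg (vh (gp g y)) h1
        rw [map_mul, map_one, hvp g fun g => a (Sum.inr g), map_prod,
          Finset.prod_eq_one (fun w _ => by rw [map_zpow, hvl, one_zpow]), one_mul] at h3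
        have h4 : -(h : ℤ) * a (Sum.inr g) = 0 := h3
        rcases mul_eq_zero.mp h4 with h5 | h5
        · omega
        · exact h5
      have h6 : ∏ g : L ≃ₐ[F] L, u (Sum.inr g) ^ a (Sum.inr g) = 1 :=
        Finset.prod_eq_one fun g _ => by rw [h2, zpow_zero]
      rw [h6, mul_one, hul' fun w => a (Sum.inl w), ← map_one (ui L)] at h1
      obtain ⟨k, hk⟩ := (hrel _).mp (ui_injective h1)
      refine ⟨k, ?_⟩
      funext x
      rcases x with w | g
      · exact congrFun hk w
      · rw [h2]; simp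
    · rintro ⟨k, rfl⟩
      have h6 : ∏ g : L ≃ₐ[F] L, u (Sum.inr g) ^
          (k • (Sum.elim e₀ fun _ => 0 : InfinitePlace L ⊕ (L ≃ₐ[F] L) → ℤ)) (Sum.inr g) = 1 :=
        Finset.prod_eq_one fun g _ => by simp
      rw [h6, mul_one, hul' fun w =>
        (k • (Sum.elim e₀ fun _ => 0 : InfinitePlace L ⊕ (L ≃ₐ[F] L) → ℤ)) (Sum.inl w)]
      have h7 : ∏ w, u₀ w ^ (k • (Sum.elim e₀ fun _ => 0 :
          InfinitePlace L ⊕ (L ≃ₐ[F] L) → ℤ)) (Sum.inl w) = 1 := by
        rw [hrel]
        exact ⟨k, by funext w; simp⟩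
      rw [h7, map_one]

end

end Vale.Agent.P024.H903
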